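import Vale.Agent.P038.H139.LA

/-!
# Existence of the optimal counterexample
-/

namespace Vale.Agent.P038.H139

open Finset

universe u

/-- The reversed graph. -/
def rev {V : Type*} (D : OGraph V) : OGraph V where
  arc a b := D.arc b a
  loopless := D.loopless
  asymm a b h := fun h' => D.asymm a b h' h

section

variable {V : Type u} [Fintype V]

open Classical in
/-- The matrix of the linear map `w ↦ F_w`. -/
noncomputable def Mx (lam : ℝ) (D : OGraph V) : Matrix V V ℝ := fun a b =>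
  lam * (if b ∈ N1 D a then 1 else 0) - (if b ∈ N2 D a then 1 else 0)

theorem Mx_mulVec (lam : ℝ) (D : OGraph V) (x : V → ℝ) (a : V) :
    (Mx lam D).mulVec x a = Fw lam D x a := by
  classical
  unfold Fw W Matrix.mulVec dotProduct Mx
  simp only [sub_mul, Finset.sum_sub_distrib, mul_assoc, ← Finset.mul_sum, ite_mul, one_mul,
    zero_mul, Finset.sum_ite_mem, Finset.univ_inter]

theorem Mx_transpose (lam : ℝ) (D : OGraph V) : (Mx lam D).transpose = Mx lam (rev D) := by
  classical
  funext a b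
  rw [Matrix.transpose_apply]
  unfold Mx
  have h1 : a ∈ N1 D b ↔ b ∈ N1 (rev D) a := by
    rw [mem_N1, mem_N1]; exact Iff.rfl
  have h2 : a ∈ N2 D b ↔ b ∈ N2 (rev D) a := by
    rw [mem_N2, mem_N2]
    constructor
    · rintro ⟨h1, h2, m, h3, h4⟩
      exact ⟨fun h => h1 h.symm, h2, m, h4, h3⟩
    · rintro ⟨h1, h2, m, h3, h4⟩
      exact ⟨fun h => h1 h.symm, h2, m, h4, h3⟩
  simp only [h1, h2]

/-- The induction hypothesis. -/
def Ind (lam : ℝ) (V : Type u) [Fintype V] : Prop :=
  ∀ (V' : Type u) [Fintype V'] [Nonempty V'], Fintype.card V' < Fintype.card V →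
    ∀ (D' : OGraph V') (w' : V' → ℝ), (∀ v, 0 ≤ w' v) → ∃ v, Fw lam D' w' v ≤ 0

theorem ce_pos {lam : ℝ} (IH : Ind lam V) (D : OGraph V) (w : V → ℝ) (hw : ∀ v, 0 ≤ w v)
    (hF : ∀ v, 0 < Fw lam D w v) : ∀ v, 0 < w v := by
  classical
  by_contra hcon
  push Not at hcon
  obtain ⟨v0, hv0⟩ := hcon
  have hne : ∃ v, 0 < w v := by
    by_contra hno
    push Not at hno
    have h0 : ∀ v, w v = 0 := fun v => le_antisymm (hno v) (hw v)
    have h1 := hF v0
    unfold Fw W at h1
    simp only [h0, Finset.sum_const_zero, mul_zero, sub_zero, lt_irrefl] at h1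
  have : Nonempty {v // 0 < w v} := by
    obtain ⟨v, hv⟩ := hne
    exact ⟨⟨v, hv⟩⟩
  have hcard : Fintype.card {v // 0 < w v} < Fintype.card V :=
    Fintype.card_subtype_lt (x := v0) (not_lt.2 hv0)
  set D' : OGraph {v // 0 < w v} :=
    { arc := fun a b => D.arc a.1 b.1
      loopless := fun a => D.loopless a.1
      asymm := fun a b => D.asymm a.1 b.1 } with hD'
  obtain ⟨v, hv⟩ := IH {v // 0 < w v} hcard D' (fun v => w v.1) (fun v => hw v.1)
  have h1 : W (fun v : {v // 0 < w v} => w v.1) (N1 D' v) = W w (N1 D v.1) := by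
    have e : W (fun v : {v // 0 < w v} => w v.1) (N1 D' v) =
        ∑ z ∈ (N1 D' v).map (Function.Embedding.subtype _), w z := by
      rw [Finset.sum_map]; rfl
    rw [e]
    refine Finset.sum_subset ?_ ?_
    · intro z hz
      obtain ⟨z', hz', rfl⟩ := Finset.mem_map.1 hz
      have h1 : D'.arc v z' := mem_N1.1 hz'
      exact mem_N1.2 h1
    · intro z hz hz'
      by_contra h
      have hpos : 0 < w z := lt_of_le_of_ne (hw z) (Ne.symm h)
      have h1 : D.arc v.1 z := mem_N1.1 hz
      have h2 : (⟨z, hpos⟩ : {v // 0 < w v}) ∈ N1 D' v := mem_N1.2 h1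
      exact hz' (Finset.mem_map.2 ⟨⟨z, hpos⟩, h2, rfl⟩)
  have h2 : W (fun v : {v // 0 < w v} => w v.1) (N2 D' v) ≤ W w (N2 D v.1) := by
    have e : W (fun v : {v // 0 < w v} => w v.1) (N2 D' v) =
        ∑ z ∈ (N2 D' v).map (Function.Embedding.subtype _), w z := by
      rw [Finset.sum_map]; rfl
    rw [e]
    refine Finset.sum_le_sum_of_subset_of_nonneg ?_ fun z _ _ => hw z
    intro z hz
    obtain ⟨z', hz', rfl⟩ := Finset.mem_map.1 hz
    obtain ⟨h3, h4, m, h5, h6⟩ := mem_N2.1 hz'
    exact mem_N2.2 ⟨fun h => h3 (Subtype.ext h), h4, m.1, h5, h6⟩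
  have h3 := hF v.1
  unfold Fw at h3 hv
  rw [h1] at hv
  linarith

theorem Fw_add (lam : ℝ) (D : OGraph V) (x y : V → ℝ) (v : V) :
    Fw lam D (fun z => x z + y z) v = Fw lam D x v + Fw lam D y v := by
  unfold Fw W
  rw [Finset.sum_add_distrib, Finset.sum_add_distrib]
  ring

theorem Fw_smul (lam : ℝ) (D : OGraph V) (c : ℝ) (y : V → ℝ) (v : V) :
    Fw lam D (fun z => c * y z) v = c * Fw lam D y v := by
  unfold Fw W
  rw [← Finset.mul_sum, ← Finset.mul_sum]
  ring

theorem ce_mono {lam : ℝ} (IH : Ind lam V) (D : OGraph V) (w : V → ℝ) (hw : ∀ v, 0 ≤ w v)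
    (hF : ∀ v, 0 < Fw lam D w v) (x : V → ℝ) (hx : ∀ v, 0 ≤ Fw lam D x v) :
    ∀ v, 0 ≤ x v := by
  classical
  by_contra hcon
  push Not at hcon
  obtain ⟨v1, hv1⟩ := hcon
  have hpos := ce_pos IH D w hw hF
  obtain ⟨v0, -, hmax⟩ := Finset.exists_max_image (Finset.univ : Finset V)
    (fun v => -x v / w v) ⟨v1, Finset.mem_univ _⟩
  set s := -x v0 / w v0 with hs
  have hs0 : 0 < s := by
    have h1 := hmax v1 (Finset.mem_univ _)
    have h2 : 0 < -x v1 / w v1 := div_pos (by linarith) (hpos v1)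
    exact lt_of_lt_of_le h2 h1
  have hy : ∀ v, 0 ≤ x v + s * w v := by
    intro v
    have h1 : -x v / w v ≤ s := hmax v (Finset.mem_univ _)
    rw [div_le_iff₀ (hpos v)] at h1
    linarith
  have hy0 : x v0 + s * w v0 = 0 := by
    have h1 : s * w v0 = -x v0 := div_mul_cancel₀ _ (hpos v0).ne'
    linarith
  have h2 := ce_pos IH D (fun v => x v + s * w v) hy (fun v => by
    rw [Fw_add, Fw_smul]
    have h3 := hx v
    have h4 := mul_pos hs0 (hF v)
    linarith) v0
  rw [hy0] at h2
  exact lt_irrefl _ h2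

theorem ce_la {lam : ℝ} (IH : Ind lam V) (D : OGraph V) (w : V → ℝ) (hw : ∀ v, 0 ≤ w v)
    (hF : ∀ v, 0 < Fw lam D w v) (b : V → ℝ) (hb : ∀ v, 0 ≤ b v) :
    (∃ x : V → ℝ, (∀ v, 0 ≤ x v) ∧ ∀ v, Fw lam D x v = b v) ∧
      ∃ p : V → ℝ, (∀ v, 0 ≤ p v) ∧ ∀ v, Fw lam (rev D) p v = b v := by
  classical
  obtain ⟨⟨x, hx, hx'⟩, p, hp, hp'⟩ := la (Mx lam D) (fun x hx =>
    ce_mono IH D w hw hF x (fun v => by rw [← Mx_mulVec]; exact hx v)) b hb
  refine ⟨⟨x, hx, fun v => ?_⟩, p, hp, fun v => ?_⟩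
  · rw [← Mx_mulVec, hx']
  · rw [← Mx_mulVec, ← Mx_transpose, hp']

theorem pair_eq (lam : ℝ) (D : OGraph V) (x y : V → ℝ) :
    ∑ a, x a * Fw lam D y a = ∑ b, Fw lam (rev D) x b * y b := by
  classical
  simp only [← Mx_mulVec, ← Mx_transpose]
  have h := Matrix.dotProduct_mulVec x (Mx lam D) y
  rw [← Matrix.mulVec_transpose] at h
  exact h

instance : Finite (OGraph V) :=
  Finite.of_injective (fun D : OGraph V => D.arc) (by
    rintro ⟨a, _, _⟩ ⟨b, _, _⟩ h
    simp only at h
    subst h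
    rfl)

end

open Classical in
/-- The graph with smaller in-neighbourhood of `x`. -/
noncomputable def nest {V : Type*} (D : OGraph V) (u x : V) (hux : D.arc u x)
    (h : ∀ q, D.arc q u → D.arc q x) : OGraph V where
  arc a b := if b = x then D.arc a u ∨ a = u else D.arc a b
  loopless a ha := by
    split_ifs at ha with h1
    · rcases ha with h2 | h2
      · exact D.loopless a (by rw [h1]; rw [h1] at h2; exact h x h2)
      · rw [h1] at h2
        rw [h2] at hux
        exact D.loopless _ hux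
    · exact D.loopless a ha
  asymm a b ha hb := by
    have key : ∀ c d, (if d = x then D.arc c u ∨ c = u else D.arc c d) → D.arc c d := by
      intro c d hcd
      split_ifs at hcd with h1
      · rw [h1]
        rcases hcd with h2 | h2
        · exact h c h2
        · rw [h2]; exact hux
      · exact hcd
    exact D.asymm a b (key a b ha) (key b a hb)

theorem nest_arc_self {V : Type*} {D : OGraph V} {u x : V} (hux : D.arc u x)
    (h : ∀ q, D.arc q u → D.arc q x) (a : V) :
    (nest D u x hux h).arc a x ↔ (D.arc a u ∨ a = u) := by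
  classical
  show (if x = x then D.arc a u ∨ a = u else D.arc a x) ↔ _
  rw [if_pos rfl]

theorem nest_arc_of_ne {V : Type*} {D : OGraph V} {u x : V} (hux : D.arc u x)
    (h : ∀ q, D.arc q u → D.arc q x) (a : V) {b : V} (hb : b ≠ x) :
    (nest D u x hux h).arc a b ↔ D.arc a b := by
  classical
  show (if b = x then D.arc a u ∨ a = u else D.arc a b) ↔ _
  rw [if_neg hb]

theorem nest_sub {V : Type*} {D : OGraph V} {u x : V} (hux : D.arc u x)
    (h : ∀ q, D.arc q u → D.arc q x) {a b : V} (hab : (nest D u x hux h).arc a b) :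
    D.arc a b := by
  by_cases hb : b = x
  · subst hb
    rcases (nest_arc_self hux h a).1 hab with h1 | h1
    · exact h a h1
    · rw [h1]; exact hux
  · exact (nest_arc_of_ne hux h a hb).1 hab

theorem no_nest {lam : ℝ} (h0 : 0 ≤ lam) {V : Type u} [Fintype V] (IH : Ind lam V)
    (D : OGraph V) (w : V → ℝ) (hw : ∀ v, 0 ≤ w v) (hF : ∀ v, 0 < Fw lam D w v) (u x : V)
    (hux : D.arc u x) (h : ∀ q, D.arc q u → D.arc q x) : False := by
  classical
  have hne : u ≠ x := fun e => D.loopless x (e ▸ hux)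
  obtain ⟨-, p, hp, hp1⟩ := ce_la IH D w hw hF (fun _ => 1) (fun _ => zero_le_one)
  set D2 := nest D u x hux h with hD2
  -- the reversed graph with weights `p` is a counterexample
  have hce : ∀ v, 1 ≤ Fw lam (rev D2) p v := by
    intro v
    by_cases hv : v = x
    · subst hv
      have h1 := hp1 u
      have h2 : W p (N1 (rev D) u) + p u ≤ W p (N1 (rev D2) v) := by
        have h3 : u ∉ N1 (rev D) u := fun h => by
          have h' : (rev D).arc u u := mem_N1.1 h
          exact D.loopless u h'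
        have h4 : W p (insert u (N1 (rev D) u)) = p u + W p (N1 (rev D) u) :=
          Finset.sum_insert h3
        rw [add_comm, ← h4]
        refine W_mono hp ?_
        intro q hq
        rw [Finset.mem_insert] at hq
        refine mem_N1.2 ((nest_arc_self hux h q).2 ?_)
        rcases hq with h5 | h5
        · exact Or.inr h5
        · have h6 : (rev D).arc u q := mem_N1.1 h5
          exact Or.inl h6
      have h3 : W p (N2 (rev D2) v) ≤ W p (N2 (rev D) u) := by
        refine W_mono hp ?_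
        intro z hz
        obtain ⟨h4, h5, m, h6, h7⟩ := mem_N2.1 hz
        have h5' : ¬ (D.arc z u ∨ z = u) := fun h8 => h5 ((nest_arc_self hux h z).2 h8)
        push Not at h5'
        have h6' : D.arc m u ∨ m = u := (nest_arc_self hux h m).1 h6
        have h7' : D.arc z m := nest_sub hux h h7
        rcases h6' with h8 | h8
        · exact mem_N2.2 ⟨h5'.2, h5'.1, m, h8, h7'⟩
        · rw [h8] at h7'
          exact absurd h7' h5'.1
      unfold Fw at h1 ⊢
      have h4 := mul_le_mul_of_nonneg_left h2 h0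
      have h5 := mul_nonneg h0 (hp u)
      rw [mul_add] at h4
      linarith
    · have h1 := hp1 v
      have h2 : N1 (rev D2) v = N1 (rev D) v := by
        ext q
        rw [mem_N1, mem_N1]
        exact nest_arc_of_ne hux h q hv
      have h3 : W p (N2 (rev D2) v) ≤ W p (N2 (rev D) v) := by
        refine W_mono hp ?_
        intro z hz
        obtain ⟨h4, h5, m, h6, h7⟩ := mem_N2.1 hz
        exact mem_N2.2 ⟨h4, fun h8 => h5 ((nest_arc_of_ne hux h z hv).2 h8), m,
          nest_sub hux h h6, nest_sub hux h h7⟩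
      unfold Fw at h1 ⊢
      rw [h2]
      linarith
  obtain ⟨⟨q, hq, hq1⟩, -⟩ := ce_la IH (rev D2) p hp
    (fun v => lt_of_lt_of_le zero_lt_one (hce v)) (fun v => if v = u then 1 else 0)
    (fun v => by split_ifs <;> norm_num)
  set y : V → ℝ := fun v => (if v = x then 1 else 0) - (if v = u then 1 else 0) with hy
  have hN1 : ∀ a, (if x ∈ N1 D2 a then (1 : ℝ) else 0) =
      (if u ∈ N1 D2 a then 1 else 0) + (if a = u then 1 else 0) := by
    intro a
    have h1 : x ∈ N1 D2 a ↔ (D.arc a u ∨ a = u) := by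
      rw [mem_N1]; exact nest_arc_self hux h a
    have h2 : u ∈ N1 D2 a ↔ D.arc a u := by
      rw [mem_N1]; exact nest_arc_of_ne hux h a hne
    simp only [h1, h2]
    by_cases h3 : a = u
    · have h4 : ¬ D.arc a u := by rw [h3]; exact D.loopless u
      simp [h3, D.loopless u]
    · simp [h3]
  have hN2 : ∀ a, (if x ∈ N2 D2 a then (1 : ℝ) else 0) = (if u ∈ N2 D2 a then 1 else 0) := by
    intro a
    have h1 : x ∈ N2 D2 a ↔ u ∈ N2 D2 a := by
      rw [mem_N2, mem_N2]
      constructor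
      · rintro ⟨h2, h3, m, h4, h5⟩
        have h3' : ¬ (D.arc a u ∨ a = u) := fun h8 => h3 ((nest_arc_self hux h a).2 h8)
        push Not at h3'
        rcases (nest_arc_self hux h m).1 h5 with h6 | h6
        · exact ⟨fun e => h3'.2 e.symm, fun h7 => h3'.1 ((nest_arc_of_ne hux h a hne).1 h7), m,
            h4, (nest_arc_of_ne hux h m hne).2 h6⟩
        · rw [h6] at h4
          exact absurd ((nest_arc_of_ne hux h a hne).1 h4) h3'.1
      · rintro ⟨h2, h3, m, h4, h5⟩
        have h3' : ¬ D.arc a u := fun h8 => h3 ((nest_arc_of_ne hux h a hne).2 h8)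
        have h5' : D.arc m u := (nest_arc_of_ne hux h m hne).1 h5
        refine ⟨fun e => ?_, fun h7 => ?_, m, h4, (nest_arc_self hux h m).2 (Or.inl h5')⟩
        · have h8 := nest_sub hux h h4
          rw [← e] at h8
          exact D.asymm _ _ h8 (h m h5')
        · rcases (nest_arc_self hux h a).1 h7 with h8 | h8
          · exact h3' h8
          · exact h2 h8.symm
    simp only [h1]
  have hFy : ∀ a, Fw lam D2 y a = if a = u then lam else 0 := by
    intro a
    have e : ∀ S : Finset V, W y S = (if x ∈ S then 1 else 0) - (if u ∈ S then 1 else 0) := by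
      intro S
      unfold W
      rw [hy, Finset.sum_sub_distrib, Finset.sum_ite_eq', Finset.sum_ite_eq']
    unfold Fw
    rw [e, e, hN1, hN2]
    split_ifs <;> ring
  have h1 := pair_eq lam D2 q y
  simp only [hFy, hq1] at h1
  have h2 : ∑ a, q a * (if a = u then lam else 0) = q u * lam := by
    simp only [mul_ite, mul_zero, Finset.sum_ite_eq', Finset.mem_univ, if_true]
  have h3 : ∑ b, (if b = u then (1 : ℝ) else 0) * y b = y u := by
    simp only [ite_mul, one_mul, zero_mul, Finset.sum_ite_eq', Finset.mem_univ, if_true]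
  rw [h2, h3] at h1
  have h4 : y u = -1 := by
    rw [hy]
    simp [hne]
  rw [h4] at h1
  have h5 := mul_nonneg (hq u) h0
  linarith

theorem exists_opt {lam : ℝ} (h0 : 0 ≤ lam) {V : Type u} [Fintype V] [Nonempty V]
    (IH : ∀ (V' : Type u) [Fintype V'] [Nonempty V'], Fintype.card V' < Fintype.card V →
      ∀ (D' : OGraph V') (w' : V' → ℝ), (∀ v, 0 ≤ w' v) → ∃ v, Fw lam D' w' v ≤ 0)
    (D : OGraph V) (w : V → ℝ) (hw : ∀ v, 0 ≤ w v) (hF : ∀ v, 0 < Fw lam D w v) :
    ∃ (D : OGraph V) (w : V → ℝ), Opt lam D w := by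
  classical
  have IH' : Ind lam V := IH
  let P : OGraph V → (V → ℝ) → Prop := fun D w => (∀ v, 0 ≤ w v) ∧ ∀ v, Fw lam D w v = 1
  have hPce : ∀ D w, P D w → ∀ v, 0 < Fw lam D w v := fun D w h v => by
    rw [h.2 v]; exact one_pos
  -- comparison of solutions
  have hcmp : ∀ (D : OGraph V) (w w' : V → ℝ), P D w' → (∀ v, 1 ≤ Fw lam D w v) →
      ∀ v, w' v ≤ w v := by
    intro D w w' h' h1 v
    have h2 : 0 ≤ w v + (-1) * w' v :=
      ce_mono IH' D w' h'.1 (hPce D w' h') (fun z => w z + (-1) * w' z) (fun v => by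
        rw [Fw_add, Fw_smul, h'.2 v]
        have := h1 v
        linarith) v
    linarith
  let f : OGraph V → ℝ := fun D => if h : ∃ w, P D w then ∑ v, h.choose v else 0
  have hf : ∀ D w, P D w → f D = ∑ v, w v := by
    intro D w h
    have hex : ∃ w, P D w := ⟨w, h⟩
    have h1 : f D = ∑ v, hex.choose v := dif_pos hex
    rw [h1]
    have h2 := hex.choose_spec
    refine Finset.sum_congr rfl fun v _ => le_antisymm ?_ ?_
    · exact hcmp D w _ h2 (fun v => (h.2 v).ge) v
    · exact hcmp D _ w h (fun v => (h2.2 v).ge) v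
  obtain ⟨⟨w1, hw1, hw1'⟩, -⟩ := ce_la IH' D w hw hF (fun _ => 1) (fun _ => zero_le_one)
  obtain ⟨D0, ⟨w0, hP0⟩, hmin⟩ := Set.exists_min_image {D : OGraph V | ∃ w, P D w} f
    (Set.toFinite _) ⟨D, w1, hw1, hw1'⟩
  refine ⟨D0, w0, h0, ce_pos IH' D0 w0 hP0.1 (hPce D0 w0 hP0), hP0.2, ?_, ?_⟩
  · intro D' hD' v
    have hce : ∀ v, 0 < Fw lam D' w0 v := fun v => lt_of_lt_of_le one_pos (hD' v)
    obtain ⟨⟨w', hw', hw''⟩, -⟩ := ce_la IH' D' w0 hP0.1 hce (fun _ => 1) (fun _ => zero_le_one)
    have hP' : P D' w' := ⟨hw', hw''⟩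
    have h1 := hmin D' ⟨w', hP'⟩
    rw [hf D0 w0 hP0, hf D' w' hP'] at h1
    have h2 := hcmp D' w0 w' hP' hD'
    have h3 : ∀ z, w' z = w0 z := by
      have h4 : ∑ v, (w0 v - w' v) = 0 := by
        rw [Finset.sum_sub_distrib]
        have h5 : ∑ v, w' v ≤ ∑ v, w0 v := Finset.sum_le_sum fun v _ => h2 v
        linarith
      intro z
      have h5 := (Finset.sum_eq_zero_iff_of_nonneg (fun v _ => sub_nonneg.2 (h2 v))).1 h4 z
        (Finset.mem_univ _)
      linarith
    have h4 : w' = w0 := funext h3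
    rw [← h4]
    exact hw'' v
  · intro a x hax hq
    exact no_nest h0 IH' D0 w0 hP0.1 (hPce D0 w0 hP0) a x hax hq

end Vale.Agent.P038.H139
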