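import Vale.Agent.P038.H139.GStep
import Vale.Agent.P038.H139.Ex

/-!
# The normal form of a counterexample (P038)

`NF lam D w`: no counterexample on fewer vertices (`Ind`), `F_w = 1` in every row, and the total
weight `∑ w` is minimal among all solutions of `F = 1` on all oriented graphs on `V`
(i.e. the game value is maximal).
-/

namespace Vale.Agent.P038.H139

open Finset

universe u

variable {V : Type u} [Fintype V]

/-- The normal form. -/
structure NF (lam : ℝ) (D : OGraph V) (w : V → ℝ) : Prop where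
  lam_nonneg : 0 ≤ lam
  ind : Ind lam V
  pos : ∀ v, 0 < w v
  one : ∀ v, Fw lam D w v = 1
  min : ∀ (D' : OGraph V) (w' : V → ℝ), (∀ v, 0 ≤ w' v) → (∀ v, Fw lam D' w' v = 1) →
    ∑ v, w v ≤ ∑ v, w' v

theorem NF.nonneg {lam : ℝ} {D : OGraph V} {w : V → ℝ} (h : NF lam D w) (v : V) : 0 ≤ w v :=
  (h.pos v).le

theorem NF.posF {lam : ℝ} {D : OGraph V} {w : V → ℝ} (h : NF lam D w) (v : V) :
    0 < Fw lam D w v := by
  rw [h.one v]; exact one_pos

/-- Comparison: if `F'_w ≥ 1` everywhere then `w' ≤ w` for the solution of `F'_{w'} = 1`. -/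
theorem cmp_sol {lam : ℝ} (IH : Ind lam V) (D : OGraph V) (w w' : V → ℝ)
    (hw' : ∀ v, 0 ≤ w' v) (h' : ∀ v, Fw lam D w' v = 1) (h1 : ∀ v, 1 ≤ Fw lam D w v) :
    ∀ v, w' v ≤ w v := by
  intro v
  have h2 : 0 ≤ w v + (-1) * w' v :=
    ce_mono IH D w' hw' (fun v => by rw [h' v]; exact one_pos)
      (fun z => w z + (-1) * w' z) (fun v => by
        rw [Fw_add, Fw_smul, h' v]
        have := h1 v
        linarith) v
  linarith

/-- Extremality, weights fixed. -/
theorem NF.opt {lam : ℝ} {D : OGraph V} {w : V → ℝ} (h : NF lam D w) (D' : OGraph V)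
    (h1 : ∀ v, 1 ≤ Fw lam D' w v) (v : V) : Fw lam D' w v = 1 := by
  have hce : ∀ v, 0 < Fw lam D' w v := fun v => lt_of_lt_of_le one_pos (h1 v)
  obtain ⟨⟨w', hw', hw''⟩, -⟩ := ce_la h.ind D' w h.nonneg hce (fun _ => 1)
    (fun _ => zero_le_one)
  have h2 := cmp_sol h.ind D' w w' hw' hw'' h1
  have h3 := h.min D' w' hw' hw''
  have h4 : ∑ v, (w v - w' v) = 0 := by
    rw [Finset.sum_sub_distrib]
    have h5 : ∑ v, w' v ≤ ∑ v, w v := Finset.sum_le_sum fun v _ => h2 v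
    linarith
  have h5 : ∀ z, w z = w' z := by
    intro z
    have h6 := (Finset.sum_eq_zero_iff_of_nonneg (fun v _ => sub_nonneg.2 (h2 v))).1 h4 z
      (Finset.mem_univ _)
    linarith
  have h6 : w = w' := funext h5
  rw [h6]
  exact hw'' v

/-- Every graph whose rows are all at least `1` (same weights) is again in normal form. -/
theorem NF.transfer {lam : ℝ} {D : OGraph V} {w : V → ℝ} (h : NF lam D w) (D' : OGraph V)
    (h1 : ∀ v, 1 ≤ Fw lam D' w v) : NF lam D' w :=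
  ⟨h.lam_nonneg, h.ind, h.pos, h.opt D' h1, h.min⟩

/-- In every counterexample on `V` there is no arc `u → x` with `N⁻(u) ⊆ N⁻(x)`. -/
theorem NF.noNest {lam : ℝ} {D : OGraph V} {w : V → ℝ} (h : NF lam D w) (u x : V)
    (hux : D.arc u x) : ¬ ∀ q, D.arc q u → D.arc q x :=
  fun h' => no_nest h.lam_nonneg h.ind D w h.nonneg h.posF u x hux h'

theorem NF.toOpt {lam : ℝ} {D : OGraph V} {w : V → ℝ} (h : NF lam D w) : Opt lam D w :=
  ⟨h.lam_nonneg, h.pos, h.one, fun D' h1 v => h.opt D' h1 v, fun u x hux => h.noNest u x hux⟩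

theorem rev_rev {V : Type*} (D : OGraph V) : rev (rev D) = D := rfl

/-- The mirrored normal form: the reversed graph with the column weights `p`. -/
theorem NF.exists_rev {lam : ℝ} {D : OGraph V} {w : V → ℝ} (h : NF lam D w) :
    ∃ p : V → ℝ, NF lam (rev D) p ∧ ∑ v, p v = ∑ v, w v := by
  obtain ⟨-, p, hp, hp1⟩ := ce_la h.ind D w h.nonneg h.posF (fun _ => 1) (fun _ => zero_le_one)
  have hsum : ∑ v, p v = ∑ v, w v := by
    have h1 := pair_eq lam D p w
    simp only [h.one, hp1, mul_one, one_mul] at h1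
    exact h1
  refine ⟨p, ⟨h.lam_nonneg, h.ind,
    ce_pos h.ind (rev D) p hp (fun v => by rw [hp1 v]; exact one_pos), hp1, ?_⟩, hsum⟩
  intro D' w' hw' hw1
  obtain ⟨-, p', hp', hp1'⟩ := ce_la h.ind D' w' hw' (fun v => by rw [hw1 v]; exact one_pos)
    (fun _ => 1) (fun _ => zero_le_one)
  have hsum' : ∑ v, p' v = ∑ v, w' v := by
    have h1 := pair_eq lam D' p' w'
    simp only [hw1, hp1', mul_one, one_mul] at h1
    exact h1
  have := h.min (rev D') p' hp' hp1'
  linarith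

/-- Existence of the normal form. -/
theorem exists_nf {lam : ℝ} (h0 : 0 ≤ lam) (IH : Ind lam V) (D : OGraph V) (w : V → ℝ)
    (hw : ∀ v, 0 ≤ w v) (hF : ∀ v, 0 < Fw lam D w v) :
    ∃ (D : OGraph V) (w : V → ℝ), NF lam D w := by
  classical
  let P : OGraph V → (V → ℝ) → Prop := fun D w => (∀ v, 0 ≤ w v) ∧ ∀ v, Fw lam D w v = 1
  let f : OGraph V → ℝ := fun D => if h : ∃ w, P D w then ∑ v, h.choose v else 0
  have hf : ∀ D w, P D w → f D = ∑ v, w v := by
    intro D w h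
    have hex : ∃ w, P D w := ⟨w, h⟩
    have h1 : f D = ∑ v, hex.choose v := dif_pos hex
    rw [h1]
    have h2 := hex.choose_spec
    refine Finset.sum_congr rfl fun v _ => le_antisymm ?_ ?_
    · exact cmp_sol IH D w _ h2.1 h2.2 (fun v => (h.2 v).ge) v
    · exact cmp_sol IH D _ w h.1 h.2 (fun v => (h2.2 v).ge) v
  obtain ⟨⟨w1, hw1, hw1'⟩, -⟩ := ce_la IH D w hw hF (fun _ => 1) (fun _ => zero_le_one)
  obtain ⟨D0, ⟨w0, hP0⟩, hmin⟩ := Set.exists_min_image {D : OGraph V | ∃ w, P D w} f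
    (Set.toFinite _) ⟨D, w1, hw1, hw1'⟩
  refine ⟨D0, w0, h0, IH, ce_pos IH D0 w0 hP0.1 (fun v => by rw [hP0.2 v]; exact one_pos),
    hP0.2, ?_⟩
  intro D' w' hw' hw1'
  have h1 := hmin D' ⟨w', hw', hw1'⟩
  rw [hf D0 w0 hP0, hf D' w' ⟨hw', hw1'⟩] at h1
  exact h1

/-- The number of arcs. -/
noncomputable def numArcs (D : OGraph V) : ℕ := ∑ v, (N1 D v).card

/-- Normal form with the minimal number of arcs. -/
structure NFmin (lam : ℝ) (D : OGraph V) (w : V → ℝ) : Prop extends NF lam D w where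
  arcmin : ∀ (D' : OGraph V) (w' : V → ℝ), NF lam D' w' → numArcs D ≤ numArcs D'

/-- Normal form with the maximal number of arcs. -/
structure NFmax (lam : ℝ) (D : OGraph V) (w : V → ℝ) : Prop extends NF lam D w where
  arcmax : ∀ (D' : OGraph V) (w' : V → ℝ), NF lam D' w' → numArcs D' ≤ numArcs D

theorem exists_nfmin {lam : ℝ} {D : OGraph V} {w : V → ℝ} (h : NF lam D w) :
    ∃ (D : OGraph V) (w : V → ℝ), NFmin lam D w := by
  obtain ⟨D0, ⟨w0, h0⟩, hmin⟩ := Set.exists_min_image {D : OGraph V | ∃ w, NF lam D w} numArcs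
    (Set.toFinite _) ⟨D, w, h⟩
  exact ⟨D0, w0, h0, fun D' w' h' => hmin D' ⟨w', h'⟩⟩

theorem exists_nfmax {lam : ℝ} {D : OGraph V} {w : V → ℝ} (h : NF lam D w) :
    ∃ (D : OGraph V) (w : V → ℝ), NFmax lam D w := by
  obtain ⟨D0, ⟨w0, h0⟩, hmax⟩ := Set.exists_max_image {D : OGraph V | ∃ w, NF lam D w} numArcs
    (Set.toFinite _) ⟨D, w, h⟩
  exact ⟨D0, w0, h0, fun D' w' h' => hmax D' ⟨w', h'⟩⟩

/-- In `NFmin`, a graph with all rows at least `1` and no more arcs has equally many arcs. -/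
theorem NFmin.arcs_le {lam : ℝ} {D : OGraph V} {w : V → ℝ} (h : NFmin lam D w) (D' : OGraph V)
    (h1 : ∀ v, 1 ≤ Fw lam D' w v) : numArcs D ≤ numArcs D' :=
  h.arcmin D' w (h.toNF.transfer D' h1)

theorem NFmax.arcs_le {lam : ℝ} {D : OGraph V} {w : V → ℝ} (h : NFmax lam D w) (D' : OGraph V)
    (h1 : ∀ v, 1 ≤ Fw lam D' w v) : numArcs D' ≤ numArcs D :=
  h.arcmax D' w (h.toNF.transfer D' h1)

theorem numArcs_rev (D : OGraph V) : numArcs (rev D) = numArcs D := by
  classical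
  unfold numArcs
  have e : ∀ D : OGraph V, ∀ v, (N1 D v).card = ∑ x, if D.arc v x then 1 else 0 := by
    intro D v
    rw [Finset.card_eq_sum_ones, ← Finset.sum_filter]
    refine Finset.sum_congr ?_ fun _ _ => rfl
    ext x
    simp [mem_N1]
  simp only [e]
  rw [Finset.sum_comm]
  rfl

theorem NFmin.exists_rev {lam : ℝ} {D : OGraph V} {w : V → ℝ} (h : NFmin lam D w) :
    ∃ p : V → ℝ, NFmin lam (rev D) p := by
  obtain ⟨p, hp, -⟩ := h.toNF.exists_rev
  refine ⟨p, hp, fun D' w' h' => ?_⟩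
  obtain ⟨p', hp', -⟩ := h'.exists_rev
  have := h.arcmin _ _ hp'
  rw [numArcs_rev] at this ⊢
  exact this

theorem NFmax.exists_rev {lam : ℝ} {D : OGraph V} {w : V → ℝ} (h : NFmax lam D w) :
    ∃ p : V → ℝ, NFmax lam (rev D) p := by
  obtain ⟨p, hp, -⟩ := h.toNF.exists_rev
  refine ⟨p, hp, fun D' w' h' => ?_⟩
  obtain ⟨p', hp', -⟩ := h'.exists_rev
  have := h.arcmax _ _ hp'
  rw [numArcs_rev] at this ⊢
  exact this

/-- The closing step: if `lam ≥ 0` and no normal form exists on any finite nonempty type, then the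
constant `lam` holds for all oriented graphs. -/
theorem of_noNF {lam : ℝ} (h0 : 0 ≤ lam)
    (hno : ∀ (V : Type u) [Fintype V] [Nonempty V] (D : OGraph V) (w : V → ℝ), ¬ NF lam D w)
    (n : ℕ) : ∀ (V : Type u) [Fintype V] [Nonempty V], Fintype.card V = n →
      ∀ (D : OGraph V) (w : V → ℝ), (∀ v, 0 ≤ w v) → ∃ v, Fw lam D w v ≤ 0 := by
  induction n using Nat.strong_induction_on with
  | _ n ih =>
    intro V _ _ hn D w hw
    by_contra hcon
    push Not at hcon
    obtain ⟨D', w', h'⟩ := exists_nf h0 (V := V) (by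
      intro V' _ _ hV' D' w' hw'
      exact ih (Fintype.card V') (hn ▸ hV') V' rfl D' w' hw') D w hw hcon
    exact hno V D' w' h'

/-- Closing step, in the final form. -/
theorem snc_of_noNF {lam : ℝ} (h0 : 0 ≤ lam)
    (hno : ∀ (V : Type u) [Fintype V] [Nonempty V] (D : OGraph V) (w : V → ℝ), ¬ NF lam D w)
    {V : Type u} [Fintype V] [Nonempty V] (D : OGraph V) (w : V → ℝ) (hw : ∀ v, 0 ≤ w v) :
    ∃ v, lam * ∑ u ∈ N1 D v, w u ≤ ∑ u ∈ N2 D v, w u := by
  obtain ⟨v, hv⟩ := of_noNF h0 hno (Fintype.card V) V rfl D w hw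
  refine ⟨v, ?_⟩
  unfold Fw W at hv
  linarith

end Vale.Agent.P038.H139
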