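import Vale.Agent.P038.Defs
import Mathlib

/-!
# A general constant for Seymour's second neighbourhood problem: definitions
-/

namespace Vale.Agent.P038.H139

open Finset

variable {V : Type*} [Fintype V]

/-- Total weight of a set of vertices. -/
noncomputable def W (w : V → ℝ) (S : Finset V) : ℝ := ∑ v ∈ S, w v

/-- `F_w(u) = lam w(N⁺(u)) - w(N₂(u))`. -/
noncomputable def Fw (lam : ℝ) (D : OGraph V) (w : V → ℝ) (u : V) : ℝ :=
  lam * W w (N1 D u) - W w (N2 D u)

open Classical in
/-- The out-neighbourhood `N⁺(S)` of a set. -/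
noncomputable def outS (D : OGraph V) (S : Finset V) : Finset V :=
  Finset.univ.filter fun z => ∃ y ∈ S, D.arc y z

open Classical in
/-- The closed out-neighbourhood `N⁺[S]` of a set. -/
noncomputable def cl (D : OGraph V) (S : Finset V) : Finset V :=
  Finset.univ.filter fun z => z ∈ S ∨ ∃ y ∈ S, D.arc y z

theorem mem_outS {D : OGraph V} {S : Finset V} {z : V} :
    z ∈ outS D S ↔ ∃ y ∈ S, D.arc y z := by
  classical
  simp [outS]

theorem mem_cl {D : OGraph V} {S : Finset V} {z : V} :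
    z ∈ cl D S ↔ z ∈ S ∨ ∃ y ∈ S, D.arc y z := by
  classical
  simp [cl]

/-- `x` is within distance two of `s` (and different from `s`). -/
def Bd (D : OGraph V) (s x : V) : Prop := x ∈ N1 D s ∨ x ∈ N2 D s

/-- `y ∈ R(u)`: `y ≠ u`, no arc `y → u`, every in-neighbour of `u` sees `y` within distance
two. -/
def InR (D : OGraph V) (u y : V) : Prop :=
  y ≠ u ∧ ¬ D.arc y u ∧ ∀ s, D.arc s u → Bd D s y

open Classical in
/-- The heads of the bad arcs out of `u`. -/
noncomputable def Hb (D : OGraph V) (u : V) : Finset V :=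
  Finset.univ.filter fun x => D.arc u x ∧ ∀ q, D.arc q u → InR D q x

theorem mem_Hb {D : OGraph V} {u x : V} :
    x ∈ Hb D u ↔ D.arc u x ∧ ∀ q, D.arc q u → InR D q x := by
  classical
  simp [Hb]

/-- The optimal counterexample. -/
structure Opt (lam : ℝ) (D : OGraph V) (w : V → ℝ) : Prop where
  lam_nonneg : 0 ≤ lam
  pos : ∀ v, 0 < w v
  one : ∀ v, Fw lam D w v = 1
  opt : ∀ D' : OGraph V, (∀ v, 1 ≤ Fw lam D' w v) → ∀ v, Fw lam D' w v = 1
  noNest : ∀ u x, D.arc u x → ¬ ∀ q, D.arc q u → D.arc q x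

theorem W_mono {w : V → ℝ} (hw : ∀ v, 0 ≤ w v) {S T : Finset V} (h : S ⊆ T) : W w S ≤ W w T :=
  Finset.sum_le_sum_of_subset_of_nonneg h fun v _ _ => hw v

theorem W_nonneg {w : V → ℝ} (hw : ∀ v, 0 ≤ w v) (S : Finset V) : 0 ≤ W w S :=
  Finset.sum_nonneg fun v _ => hw v

theorem W_union [DecidableEq V] {w : V → ℝ} {S T : Finset V} (h : Disjoint S T) :
    W w (S ∪ T) = W w S + W w T :=
  Finset.sum_union h

theorem W_sdiff [DecidableEq V] {w : V → ℝ} {S T : Finset V} (h : T ⊆ S) :
    W w (S \ T) = W w S - W w T := by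
  have := Finset.sum_sdiff (f := w) h
  unfold W
  linarith

end Vale.Agent.P038.H139
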