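import Vale.Agent.P038.H139.Rel

/-!
# The shifted pair (P038): feasibility and cost
-/

namespace Vale.Agent.P038.H139

open Finset

universe u

variable {V : Type u} [Fintype V]

/-- The shifted inner relation. -/
noncomputable def Bs [DecidableEq V] (D : OGraph V) (B U : V → Finset V) (z : V) : Finset V :=
  oE D (oA D U) z ∩ oA D (oE D B) z

open Classical in
/-- The shifted outer relation. -/
noncomputable def Us (D : OGraph V) (B U : V → Finset V) (z : V) : Finset V :=
  oE D (oA D U) z ∪ (oA D (oE D B) z).filter fun b => Nb D b z → b = z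

theorem mem_Bs [DecidableEq V] {D : OGraph V} {B U : V → Finset V} {z b : V} :
    b ∈ Bs D B U z ↔ b ∈ oE D (oA D U) z ∧ b ∈ oA D (oE D B) z := by
  unfold Bs
  rw [Finset.mem_inter]

theorem mem_Us {D : OGraph V} {B U : V → Finset V} {z b : V} :
    b ∈ Us D B U z ↔ b ∈ oE D (oA D U) z ∨ (b ∈ oA D (oE D B) z ∧ (Nb D b z → b = z)) := by
  classical
  unfold Us
  rw [Finset.mem_union, Finset.mem_filter]

theorem Feas.diagA {D : OGraph V} {B U : V → Finset V} (h : Feas D B U) (a : V) :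
    a ∈ oA D U a := by
  rw [mem_oA]
  intro z' hz'
  exact h.sub _ _ (h.arc _ _ hz')

theorem feas_shift [DecidableEq V] {D : OGraph V} {B U : V → Finset V} (h : Feas D B U) :
    Feas D (Bs D B U) (Us D B U) where
  arc a x hax := by
    rw [mem_Bs]
    refine ⟨mem_oE.2 ⟨a, h.diagA a, hax⟩, mem_oA.2 fun a' ha' => ?_⟩
    exact mem_oE.2 ⟨a, h.arc _ _ ha', hax⟩
  sub a x hx := by
    rw [mem_Bs] at hx
    exact mem_Us.2 (Or.inl hx.1)
  anti z y hy hyz := by
    rcases mem_Us.1 hy with hy | ⟨_, hy⟩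
    · obtain ⟨x, hx, hxy⟩ := mem_oE.1 hy
      rw [mem_oA] at hx
      have h1 := h.anti y x (hx y hyz) hxy
      subst h1
      exact h.anti z y (hx z (Nb.refl D z)) hyz
    · exact (hy hyz).symm

theorem sub1 [DecidableEq V] {D : OGraph V} {B U : V → Finset V} (h : Feas D B U) (z : V) :
    oA D B z ⊆ oI D (Bs D B U) z := by
  intro b hb
  rw [mem_oA] at hb
  rw [mem_oI]
  intro y hby
  rw [mem_Bs]
  refine ⟨mem_oE.2 ⟨b, mem_oA.2 fun z' hz' => h.sub _ _ (hb z' hz'), hby⟩,
    mem_oA.2 fun z' hz' => mem_oE.2 ⟨b, hb z' hz', hby⟩⟩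

theorem sub2 [DecidableEq V] {D : OGraph V} {B U : V → Finset V} (h : Feas D B U) (x : V) :
    oJ D (Us D B U) x ⊆ oE D U x := by
  intro b hb
  rw [mem_oJ] at hb
  obtain ⟨y, hxy, hb⟩ := hb
  rcases mem_Us.1 hb with hb | ⟨hb, _⟩
  · obtain ⟨c, hc, hcb⟩ := mem_oE.1 hb
    rw [mem_oA] at hc
    exact mem_oE.2 ⟨c, hc x hxy, hcb⟩
  · rw [mem_oA] at hb
    obtain ⟨c, hc, hcb⟩ := mem_oE.1 (hb x hxy)
    exact mem_oE.2 ⟨c, h.sub _ _ hc, hcb⟩

/-- Cost of the shifted pair. -/
theorem cost_shift [DecidableEq V] {D : OGraph V} {w : V → ℝ} (hw : ∀ v, 0 ≤ w v)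
    {B U : V → Finset V} (h : Feas D B U) :
    Ni D w (Bs D B U) (Us D B U) ≤ mu w (oE D U) - mu w (oA D B) -
      mu w (fun z => oE D (oA D U) z \ oA D (oE D B) z) := by
  have h1 := mu_mono hw (sub1 h)
  have h2 := mu_mono hw (sub2 h)
  have h3 : mu w (Bs D B U) + mu w (fun z => oE D (oA D U) z \ oA D (oE D B) z) ≤
      mu w (Us D B U) := by
    unfold mu
    rw [← Finset.sum_add_distrib]
    refine Finset.sum_le_sum fun z _ => ?_
    rw [← mul_add, ← W_union]
    · refine mul_le_mul_of_nonneg_left (W_mono hw ?_) (hw z)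
      intro b hb
      rw [mem_Us]
      rcases Finset.mem_union.1 hb with hb | hb
      · exact Or.inl (mem_Bs.1 hb).1
      · exact Or.inl (Finset.mem_sdiff.1 hb).1
    · rw [Finset.disjoint_left]
      intro b hb hb'
      exact (Finset.mem_sdiff.1 hb').2 (mem_Bs.1 hb).2
  unfold Ni
  linarith

/-- The shifted pair is at least as good if (★) holds. -/
theorem cost_le [DecidableEq V] {D : OGraph V} {w : V → ℝ} (hw : ∀ v, 0 ≤ w v)
    {B U : V → Finset V} (h : Feas D B U)
    (hstar : mu w (fun z => oA D U z \ oA D B z) + mu w (fun z => oE D U z \ oE D B z) ≤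
      mu w (fun z => oE D (oA D U) z \ oA D (oE D B) z) + mu w (fun z => U z \ B z)) :
    Ni D w (Bs D B U) (Us D B U) ≤ No D w B U := by
  have h1 := cost_shift hw h
  have h2 : mu w (fun z => oA D U z \ oA D B z) = mu w (oA D U) - mu w (oA D B) :=
    mu_sdiff fun z b hb => by
      rw [mem_oA] at hb ⊢
      exact fun z' hz' => h.sub _ _ (hb z' hz')
  have h3 : mu w (fun z => oE D U z \ oE D B z) = mu w (oE D U) - mu w (oE D B) :=
    mu_sdiff fun z b hb => by
      rw [mem_oE] at hb ⊢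
      obtain ⟨x, hx, hxb⟩ := hb
      exact ⟨x, h.sub _ _ hx, hxb⟩
  have h4 : mu w (fun z => U z \ B z) = mu w U - mu w B := mu_sdiff fun z b hb => h.sub _ _ hb
  unfold No
  linarith

/-- The arc relation is feasible. -/
theorem feas_arc (D : OGraph V) : Feas D (fun a => cl D {a}) (fun a => cl D {a}) where
  arc a x h := mem_cl'.2 ⟨a, Finset.mem_singleton_self a, h⟩
  sub a x h := h
  anti a x h h' := by
    obtain ⟨y, hy, hyx⟩ := mem_cl'.1 h
    rw [Finset.mem_singleton] at hy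
    subst hy
    exact hyx.antisymm h'

/-- Minimisers exist. -/
theorem exists_min_feas (D : OGraph V) (f : (V → Finset V) → (V → Finset V) → ℝ) :
    ∃ B U, Feas D B U ∧ ∀ B' U', Feas D B' U' → f B U ≤ f B' U' := by
  classical
  obtain ⟨⟨B, U⟩, hBU, hmin⟩ := Set.exists_min_image
    {p : (V → Finset V) × (V → Finset V) | Feas D p.1 p.2} (fun p => f p.1 p.2)
    (Set.toFinite _) ⟨⟨_, _⟩, feas_arc D⟩
  exact ⟨B, U, hBU, fun B' U' h => hmin ⟨B', U'⟩ h⟩

end Vale.Agent.P038.H139
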