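import Vale.Agent.P038.H139.Rel

/-!
# Hall conditions at a minimiser of the outer cost (P038)
-/

namespace Vale.Agent.P038.H139

open Finset

universe u

variable {V : Type u} [Fintype V]

theorem mu_update [DecidableEq V] (w : V → ℝ) (B C : V → Finset V) (a : V)
    (h : ∀ x, x ≠ a → C x = B x) :
    mu w C = mu w B + w a * (W w (C a) - W w (B a)) := by
  have h1 : mu w C - mu w B = w a * (W w (C a) - W w (B a)) := by
    unfold mu
    rw [← Finset.sum_sub_distrib, Finset.sum_eq_single a]
    · ring
    · intro b _ hb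
      rw [h b hb]
      ring
    · intro h'
      exact absurd (Finset.mem_univ a) h'
  linarith

theorem mu_update_col [DecidableEq V] (w : V → ℝ) (B C : V → Finset V) (a : V)
    (h : ∀ x, x ≠ a → col C x = col B x) :
    mu w C = mu w B + w a * (W w (col C a) - W w (col B a)) := by
  have h1 : mu w C - mu w B = w a * (W w (col C a) - W w (col B a)) := by
    rw [mu_col, mu_col, ← Finset.sum_sub_distrib, Finset.sum_eq_single a]
    · ring
    · intro b _ hb
      rw [h b hb]
      ring
    · intro h'
      exact absurd (Finset.mem_univ a) h'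
  linarith

theorem rowHall_of_min [DecidableEq V] {D : OGraph V} {w : V → ℝ} (hw : ∀ v, 0 < w v)
    {B U : V → Finset V} (h : Feas D B U)
    (hmin : ∀ B' U', Feas D B' U' → No D w B U ≤ No D w B' U') : RowHall D w B U := by
  intro a T hT
  set B' : V → Finset V := Function.update B a (B a ∪ T) with hB'
  have ha : B' a = B a ∪ T := Function.update_self _ _ _
  have hne : ∀ x, x ≠ a → B' x = B x := fun x hx => Function.update_of_ne hx _ _
  have hfeas : Feas D B' U := by
    refine ⟨fun x y hxy => ?_, fun x y hxy => ?_, h.anti⟩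
    · by_cases hx : x = a
      · subst hx
        rw [ha]
        exact Finset.mem_union_left _ (h.arc _ _ hxy)
      · rw [hne x hx]
        exact h.arc _ _ hxy
    · by_cases hx : x = a
      · subst hx
        rw [ha] at hxy
        rcases Finset.mem_union.1 hxy with hxy | hxy
        · exact h.sub _ _ hxy
        · exact (Finset.mem_sdiff.1 (hT hxy)).1
      · rw [hne x hx] at hxy
        exact h.sub _ _ hxy
  have h1 := hmin B' U hfeas
  have h2 := mu_update w B B' a hne
  have h3 := mu_update w (oE D B) (oE D B') a (fun x hx => by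
    unfold oE
    rw [hne x hx])
  have e1 : oE D B' a = cl D (B a) ∪ (cl D T \ cl D (B a)) := by
    unfold oE
    rw [ha, cl_union, Finset.union_sdiff_self_eq_union]
  have e2 : oE D B a = cl D (B a) := rfl
  have hdT : Disjoint (B a) T := by
    rw [Finset.disjoint_left]
    intro z hz hz'
    exact (Finset.mem_sdiff.1 (hT hz')).2 hz
  rw [ha, W_union hdT] at h2
  rw [e1, e2, W_union Finset.disjoint_sdiff] at h3
  unfold No at h1
  rw [h2, h3] at h1
  have h4 : 0 ≤ w a * (W w (cl D T \ cl D (B a)) - W w T) := by nlinarith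
  have h5 := (mul_nonneg_iff_of_pos_left (hw a)).1 h4
  linarith

theorem colHall_of_min [DecidableEq V] {D : OGraph V} {w : V → ℝ} (hw : ∀ v, 0 < w v)
    {B U : V → Finset V} (h : Feas D B U)
    (hmin : ∀ B' U', Feas D B' U' → No D w B U ≤ No D w B' U') : ColHall D w B U := by
  intro x T hT
  set U' : V → Finset V := fun z => if z ∈ T then (U z).erase x else U z with hU'
  have hmem : ∀ z b, b ∈ U' z ↔ b ∈ U z ∧ ¬ (z ∈ T ∧ b = x) := by
    intro z b
    rw [hU']
    by_cases hz : z ∈ T
    · simp only [hz, if_true, Finset.mem_erase, true_and]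
      tauto
    · simp only [hz, if_false, false_and, not_false_eq_true, and_true]
  have hfeas : Feas D B U' := by
    refine ⟨h.arc, fun a b hab => ?_, fun a b hab => h.anti a b ((hmem a b).1 hab).1⟩
    rw [hmem]
    refine ⟨h.sub _ _ hab, ?_⟩
    rintro ⟨hz, rfl⟩
    exact (Finset.mem_sdiff.1 (hT a hz)).2 hab
  have h1 := hmin B U' hfeas
  have h2 := mu_update_col w U U' x (fun b hb => by
    ext a
    rw [mem_col, mem_col, hmem]
    constructor
    · exact fun h => h.1
    · exact fun h => ⟨h, fun h' => hb h'.2⟩)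
  have h3 := mu_update_col w (oA D U) (oA D U') x (fun b hb => by
    ext a
    rw [mem_col, mem_col, mem_oA, mem_oA]
    constructor
    · exact fun h z' hz' => ((hmem _ _).1 (h z' hz')).1
    · exact fun h z' hz' => (hmem _ _).2 ⟨h z' hz', fun h' => hb h'.2⟩)
  have hTU : T ⊆ col U x := fun z hz => mem_col.2 (Finset.mem_sdiff.1 (hT z hz)).1
  have e1 : col U' x = col U x \ T := by
    ext z
    rw [mem_col, hmem, Finset.mem_sdiff, mem_col]
    tauto
  have e2 : col (oA D U') x = col (oA D U) x \ (cl D T ∩ col (oA D U) x) := by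
    ext z
    rw [mem_col, mem_oA, Finset.mem_sdiff, Finset.mem_inter, mem_col, mem_oA, mem_cl']
    constructor
    · intro h4
      refine ⟨fun z' hz' => ((hmem _ _).1 (h4 z' hz')).1, ?_⟩
      rintro ⟨⟨y, hy, hyz⟩, -⟩
      exact ((hmem _ _).1 (h4 y hyz)).2 ⟨hy, rfl⟩
    · rintro ⟨h4, h5⟩ z' hz'
      refine (hmem _ _).2 ⟨h4 z' hz', ?_⟩
      rintro ⟨h6, -⟩
      exact h5 ⟨⟨z', h6, hz'⟩, h4⟩
  rw [e1, W_sdiff hTU] at h2
  rw [e2, W_sdiff Finset.inter_subset_right] at h3
  unfold No at h1
  rw [h2, h3] at h1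
  have h4 : 0 ≤ w x * (W w (cl D T ∩ col (oA D U) x) - W w T) := by nlinarith
  have h5 := (mul_nonneg_iff_of_pos_left (hw x)).1 h4
  linarith

end Vale.Agent.P038.H139
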