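import Vale.Agent.P038.H139.Cand
import Vale.Agent.P038.H139.Hall
import Vale.Agent.P038.H71.Plan

/-!
# The final step (P038): (★) implies that there is no normal form with `lam = 1`
-/

namespace Vale.Agent.P038.H139

open Finset

universe u

variable {V : Type u} [Fintype V]

/-- The inequality (★). -/
def Star [DecidableEq V] (D : OGraph V) (w : V → ℝ) : Prop :=
  ∀ B U : V → Finset V, Feas D B U → RowHall D w B U → ColHall D w B U →
    mu w (fun z => oA D U z \ oA D B z) + mu w (fun z => oE D U z \ oE D B z) ≤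
      mu w (fun z => oE D (oA D U) z \ oA D (oE D B) z) + mu w (fun z => U z \ B z)

/-- (INOUT): some feasible pair has inner cost at most the outer cost of any feasible pair. -/
theorem inout [DecidableEq V] {D : OGraph V} {w : V → ℝ} (hw : ∀ v, 0 < w v) (hs : Star D w)
    {B U L M : V → Finset V} (hmin : ∀ B' U', Feas D B' U' → Ni D w B U ≤ Ni D w B' U')
    (h : Feas D L M) : Ni D w B U ≤ No D w L M := by
  obtain ⟨B1, U1, h1, hm⟩ := exists_min_feas D (No D w)
  have h2 := cost_le (fun v => (hw v).le) h1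
    (hs B1 U1 h1 (rowHall_of_min hw h1 hm) (colHall_of_min hw h1 hm))
  exact (hmin _ _ (feas_shift h1)).trans (h2.trans (hm _ _ h))

theorem subset_cl (D : OGraph V) (X : Finset V) : X ⊆ cl D X := fun z hz => mem_cl.2 (Or.inl hz)

/-- (G), strict form. -/
theorem g_lt [DecidableEq V] {D : OGraph V} {w : V → ℝ} (h : NFmin 1 D w) (X : Finset V)
    (hX : cl D X ≠ X) : W w (cl D (cl D X)) - W w (cl D X) < W w (cl D X) - W w X := by
  have hw := h.toNF.nonneg
  have hL : H71.Lx D X = cl D X \ X := by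
    ext z
    unfold H71.Lx
    rw [Finset.mem_sdiff, Finset.mem_sdiff, mem_outS, mem_cl]
    tauto
  have hne : ∅ ⊂ H71.Lx D X := by
    rw [hL, Finset.empty_ssubset, Finset.sdiff_nonempty]
    intro h'
    exact hX (Finset.Subset.antisymm h' (subset_cl D X))
  have h1 := H71.plan_lt h X ∅ hne
  have h0 : cl D (∅ : Finset V) = ∅ := by
    ext z
    rw [mem_cl]
    simp
  unfold H71.dd at h1
  rw [hL, h0] at h1
  have h2 : W w (∅ \ X) = 0 := by
    rw [Finset.empty_sdiff]
    exact Finset.sum_empty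
  have h3 : W w ∅ = 0 := Finset.sum_empty
  rw [h2, h3] at h1
  have h4 : (cl D X \ X) ∪ (cl D (cl D X) \ cl D X) ⊆ cl D (cl D X \ X) \ X := by
    intro z hz
    rw [Finset.mem_sdiff]
    rcases Finset.mem_union.1 hz with hz | hz
    · exact ⟨subset_cl D _ hz, (Finset.mem_sdiff.1 hz).2⟩
    · obtain ⟨hz1, hz2⟩ := Finset.mem_sdiff.1 hz
      refine ⟨?_, fun hz3 => hz2 (subset_cl D _ hz3)⟩
      obtain ⟨y, hy, hyz⟩ := mem_cl'.1 hz1
      refine mem_cl'.2 ⟨y, Finset.mem_sdiff.2 ⟨hy, fun hyX => ?_⟩, hyz⟩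
      exact hz2 (mem_cl'.2 ⟨y, hyX, hyz⟩)
  have h5 := W_mono hw h4
  rw [W_union (by
    rw [Finset.disjoint_left]
    intro z hz hz'
    exact (Finset.mem_sdiff.1 hz').2 (Finset.mem_sdiff.1 hz).1)] at h5
  rw [W_sdiff (subset_cl D X)] at h1 h5
  rw [W_sdiff (subset_cl D (cl D X))] at h5
  linarith

theorem g_le [DecidableEq V] {D : OGraph V} {w : V → ℝ} (h : NFmin 1 D w) (X : Finset V) :
    W w (cl D (cl D X)) - W w (cl D X) ≤ W w (cl D X) - W w X := by
  by_cases hX : cl D X = X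
  · rw [hX, hX]
  · exact (g_lt h X hX).le

theorem W_insert_compl [DecidableEq V] (w : V → ℝ) {b : V} {S : Finset V} (hb : b ∈ S) :
    W w (insert b Sᶜ) = w b + (W w Finset.univ - W w S) := by
  have h1 : W w (insert b Sᶜ) = w b + W w Sᶜ := by
    unfold W
    exact Finset.sum_insert (by simpa using hb)
  have h2 : W w Sᶜ = W w Finset.univ - W w S := by
    rw [Finset.compl_eq_univ_sdiff]
    exact W_sdiff (Finset.subset_univ S)
  rw [h1, h2]

/-- Every nonempty out-closed set... there is a minimal one; in it some arc points backwards. -/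
theorem exists_back [Nonempty V] {D : OGraph V} (hout : ∀ v, ∃ x, D.arc v x)
    (X : V → Finset V) (hX : ∀ a, a ∈ X a) (hcl : ∀ a, cl D (X a) = X a) :
    ∃ a b, D.arc a b ∧ a ∈ X b := by
  classical
  obtain ⟨S, ⟨⟨s, hs⟩, hScl⟩, hmin⟩ := Set.exists_min_image
    {S : Finset V | S.Nonempty ∧ cl D S = S} Finset.card (Set.toFinite _)
    ⟨Finset.univ, Finset.univ_nonempty, Finset.Subset.antisymm (Finset.subset_univ _)
      (subset_cl D _)⟩
  obtain ⟨b, hb⟩ := hout s
  have hbS : b ∈ S := by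
    rw [← hScl]
    exact mem_cl.2 (Or.inr ⟨s, hs, hb⟩)
  refine ⟨s, b, hb, ?_⟩
  have hTcl : cl D (S ∩ X b) = S ∩ X b := by
    refine Finset.Subset.antisymm (fun z hz => ?_) (subset_cl D _)
    obtain ⟨y, hy, hyz⟩ := mem_cl'.1 hz
    rw [Finset.mem_inter] at hy ⊢
    refine ⟨?_, ?_⟩
    · rw [← hScl]
      exact mem_cl'.2 ⟨y, hy.1, hyz⟩
    · rw [← hcl b]
      exact mem_cl'.2 ⟨y, hy.2, hyz⟩
  have h1 := hmin (S ∩ X b) ⟨⟨b, Finset.mem_inter.2 ⟨hbS, hX b⟩⟩, hTcl⟩
  have h2 : S ∩ X b = S := Finset.eq_of_subset_of_card_le Finset.inter_subset_left h1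
  have h3 : s ∈ S ∩ X b := by
    rw [h2]
    exact hs
  exact (Finset.mem_inter.1 h3).2

open Classical in
/-- The dual rows `Y_b`. -/
noncomputable def Yr (D : OGraph V) (U : V → Finset V) (b : V) : Finset V :=
  Finset.univ.filter fun y => ∀ v, Nb D y v → b ∈ U v → v = b

theorem mem_Yr {D : OGraph V} {U : V → Finset V} {b y : V} :
    y ∈ Yr D U b ↔ ∀ v, Nb D y v → b ∈ U v → v = b := by
  classical
  simp [Yr]

open Classical in
/-- The new outer relation. -/
noncomputable def Mr (D : OGraph V) (U : V → Finset V) (z : V) : Finset V :=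
  Finset.univ.filter fun b => z = b ∨ z ∉ cl D (Yr D U b)

theorem mem_Mr {D : OGraph V} {U : V → Finset V} {z b : V} :
    b ∈ Mr D U z ↔ z = b ∨ z ∉ cl D (Yr D U b) := by
  classical
  simp [Mr]

theorem diag_Yr {D : OGraph V} {B U : V → Finset V} (h : Feas D B U) (b : V) :
    b ∈ Yr D U b := by
  rw [mem_Yr]
  intro v hv hb
  exact h.anti v b hb hv

theorem diag_I {D : OGraph V} {B U : V → Finset V} (h : Feas D B U) (a : V) :
    a ∈ oI D B a := by
  rw [mem_oI]
  intro y hy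
  exact h.arc _ _ hy

theorem cl_I_sub {D : OGraph V} {B : V → Finset V} (a : V) : cl D (oI D B a) ⊆ B a := by
  intro z hz
  obtain ⟨y, hy, hyz⟩ := mem_cl'.1 hz
  exact (mem_oI.1 hy) z hyz

theorem feas_LM {D : OGraph V} {B U : V → Finset V} (h : Feas D B U) :
    Feas D (fun a => cl D (oI D B a)) (Mr D U) where
  arc a x hax := mem_cl'.2 ⟨a, diag_I h a, hax⟩
  sub a x hx := by
    rw [mem_Mr]
    by_contra hcon
    push Not at hcon
    obtain ⟨h1, h2⟩ := hcon
    obtain ⟨y, hy, hya⟩ := mem_cl'.1 h2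
    exact h1 (mem_Yr.1 hy a hya (h.sub _ _ (cl_I_sub a hx)))
  anti z y hy hyz := by
    rcases mem_Mr.1 hy with hy | hy
    · exact hy
    · exact absurd (mem_cl'.2 ⟨y, diag_Yr h y, hyz⟩) hy

theorem final_ineq [DecidableEq V] {D : OGraph V} {w : V → ℝ} (hw : ∀ v, 0 < w v)
    (hs : Star D w) {B U : V → Finset V} (h : Feas D B U)
    (hmin : ∀ B' U', Feas D B' U' → Ni D w B U ≤ Ni D w B' U') :
    ∑ a, w a * (W w (cl D (oI D B a)) - W w (oI D B a)) +
      ∑ b, w b * (W w (cl D (Yr D U b)) - W w (Yr D U b)) ≤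
    ∑ a, w a * (W w (cl D (cl D (oI D B a))) - W w (cl D (oI D B a))) +
      ∑ b, w b * (W w (cl D (cl D (Yr D U b))) - W w (cl D (Yr D U b))) := by
  have hw' : ∀ v, 0 ≤ w v := fun v => (hw v).le
  have h1 := inout hw hs hmin (feas_LM h)
  unfold Ni No at h1
  -- rows
  have r1 : mu w (fun a => cl D (oI D B a)) ≤ mu w B := mu_mono hw' cl_I_sub
  have r2 : ∑ a, w a * (W w (cl D (oI D B a)) - W w (oI D B a)) =
      mu w (fun a => cl D (oI D B a)) - mu w (oI D B) := by
    unfold mu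
    rw [← Finset.sum_sub_distrib]
    exact Finset.sum_congr rfl fun a _ => by ring
  have r3 : ∑ a, w a * (W w (cl D (cl D (oI D B a))) - W w (cl D (oI D B a))) =
      mu w (oE D fun a => cl D (oI D B a)) - mu w (fun a => cl D (oI D B a)) := by
    unfold mu oE
    rw [← Finset.sum_sub_distrib]
    exact Finset.sum_congr rfl fun a _ => by ring
  -- columns
  have hb1 : ∀ b, b ∈ Yr D U b := diag_Yr h
  have hb2 : ∀ b, b ∈ cl D (Yr D U b) := fun b => subset_cl D _ (hb1 b)
  have hb3 : ∀ b, b ∈ cl D (cl D (Yr D U b)) := fun b => subset_cl D _ (hb2 b)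
  have c1 : ∀ b, insert b (Yr D U b)ᶜ ⊆ col (oJ D U) b := by
    intro b z hz
    rw [mem_col, mem_oJ]
    rcases Finset.mem_insert.1 hz with hz | hz
    · subst hz
      exact ⟨z, Nb.refl D z, h.sub _ _ (h.arc _ _ (Nb.refl D z))⟩
    · rw [Finset.mem_compl, mem_Yr] at hz
      push Not at hz
      obtain ⟨v, hv, hbv, -⟩ := hz
      exact ⟨v, hv, hbv⟩
  have c2 : ∀ b, col U b ⊆ insert b (cl D (Yr D U b))ᶜ := by
    intro b z hz
    rw [mem_col] at hz
    rw [Finset.mem_insert, Finset.mem_compl]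
    by_contra hcon
    push Not at hcon
    obtain ⟨h2, h3⟩ := hcon
    obtain ⟨y, hy, hyz⟩ := mem_cl'.1 h3
    exact h2 (mem_Yr.1 hy z hyz hz)
  have c3 : ∀ b, col (Mr D U) b ⊆ insert b (cl D (Yr D U b))ᶜ := by
    intro b z hz
    rw [mem_col, mem_Mr] at hz
    rw [Finset.mem_insert, Finset.mem_compl]
    exact hz
  have c4 : ∀ b, insert b (cl D (cl D (Yr D U b)))ᶜ ⊆ col (oA D (Mr D U)) b := by
    intro b z hz
    rw [mem_col, mem_oA]
    intro z' hz'
    rcases Finset.mem_insert.1 hz with hz | hz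
    · subst hz
      exact (feas_LM h).sub _ _ ((feas_LM h).arc _ _ hz')
    · rw [mem_Mr]
      refine Or.inr fun h3 => ?_
      rw [Finset.mem_compl] at hz
      exact hz (mem_cl'.2 ⟨z', h3, hz'⟩)
  have s1 : ∑ b, w b * (W w (cl D (Yr D U b)) - W w (Yr D U b)) ≤
      mu w (oJ D U) - mu w U := by
    rw [mu_col, mu_col, ← Finset.sum_sub_distrib]
    refine Finset.sum_le_sum fun b _ => ?_
    have e1 := W_mono hw' (c1 b)
    have e2 := W_mono hw' (c2 b)
    rw [W_insert_compl w (hb1 b)] at e1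
    rw [W_insert_compl w (hb2 b)] at e2
    rw [← mul_sub]
    exact mul_le_mul_of_nonneg_left (by linarith) (hw' b)
  have s2 : mu w (Mr D U) - mu w (oA D (Mr D U)) ≤
      ∑ b, w b * (W w (cl D (cl D (Yr D U b))) - W w (cl D (Yr D U b))) := by
    rw [mu_col, mu_col, ← Finset.sum_sub_distrib]
    refine Finset.sum_le_sum fun b _ => ?_
    have e1 := W_mono hw' (c3 b)
    have e2 := W_mono hw' (c4 b)
    rw [W_insert_compl w (hb2 b)] at e1
    rw [W_insert_compl w (hb3 b)] at e2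
    rw [← mul_sub]
    exact mul_le_mul_of_nonneg_left (by linarith) (hw' b)
  rw [r2, r3]
  linarith

/-- (★) excludes the normal form with `lam = 1`. -/
theorem no_nfmin [DecidableEq V] [Nonempty V] {D : OGraph V} {w : V → ℝ} (hs : Star D w) :
    ¬ NFmin 1 D w := by
  intro h
  have hw := h.toNF.pos
  obtain ⟨B, U, hBU, hmin⟩ := exists_min_feas D (Ni D w)
  have h1 := final_ineq hw hs hBU hmin
  have h2 : ∀ a, w a * (W w (cl D (cl D (oI D B a))) - W w (cl D (oI D B a))) ≤
      w a * (W w (cl D (oI D B a)) - W w (oI D B a)) := fun a =>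
    mul_le_mul_of_nonneg_left (g_le h _) (hw a).le
  have h3 : ∀ b, w b * (W w (cl D (cl D (Yr D U b))) - W w (cl D (Yr D U b))) ≤
      w b * (W w (cl D (Yr D U b)) - W w (Yr D U b)) := fun b =>
    mul_le_mul_of_nonneg_left (g_le h _) (hw b).le
  have h4 := Finset.sum_le_sum (s := Finset.univ) fun b _ => h3 b
  have hcl : ∀ a, cl D (oI D B a) = oI D B a := by
    intro a
    by_contra hne
    have h5 : ∑ a, w a * (W w (cl D (cl D (oI D B a))) - W w (cl D (oI D B a))) <
        ∑ a, w a * (W w (cl D (oI D B a)) - W w (oI D B a)) :=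
      Finset.sum_lt_sum (fun a _ => h2 a) ⟨a, Finset.mem_univ a,
        mul_lt_mul_of_pos_left (g_lt h _ hne) (hw a)⟩
    linarith
  have hout : ∀ v, ∃ x, D.arc v x := by
    intro v
    by_contra hcon
    push Not at hcon
    have h5 := h.toNF.one v
    unfold Fw at h5
    have h6 : N1 D v = ∅ := by
      ext z
      rw [mem_N1]
      simp [hcon z]
    have h7 := W_nonneg h.toNF.nonneg (N2 D v)
    rw [h6] at h5
    have h8 : W w ∅ = 0 := Finset.sum_empty
    rw [h8] at h5
    linarith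
  obtain ⟨a, b, hab, hX⟩ := exists_back hout (oI D B) (diag_I hBU) hcl
  have h5 : a ∈ U b := hBU.sub _ _ (cl_I_sub b (subset_cl D _ hX))
  have h6 := hBU.anti b a h5 (Or.inr hab)
  subst h6
  exact D.loopless _ hab

end Vale.Agent.P038.H139
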