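import Vale.Agent.P038.H139.GStep
import Vale.Agent.P038.H139.Ex

/-!
# The general constant
-/

namespace Vale.Agent.P038.H139

open Finset

universe u

theorem main_aux {lam : ℝ} (h0 : 0 ≤ lam) (h1 : lam ^ 2 + lam ^ 3 ≤ 1) (n : ℕ) :
    ∀ (V : Type u) [Fintype V] [Nonempty V], Fintype.card V = n →
      ∀ (D : OGraph V) (w : V → ℝ), (∀ v, 0 ≤ w v) → ∃ v, Fw lam D w v ≤ 0 := by
  induction n using Nat.strong_induction_on with
  | _ n ih =>
    intro V _ _ hn D w hw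
    by_contra hcon
    push Not at hcon
    obtain ⟨D', w', hopt⟩ := exists_opt h0 (V := V) (by
      intro V' _ _ hV' D' w' hw'
      exact ih (Fintype.card V') (hn ▸ hV') V' rfl D' w' hw') D w hw hcon
    have := step8 hopt
    linarith

/-- Every nonempty finite oriented graph with nonnegative weights has a vertex `v` with
`w(N₂(v)) ≥ lam w(N⁺(v))`, for every `lam ≥ 0` with `lam² + lam³ ≤ 1`. -/
theorem main {lam : ℝ} (h0 : 0 ≤ lam) (h1 : lam ^ 2 + lam ^ 3 ≤ 1)
    {V : Type u} [Fintype V] [Nonempty V] (D : OGraph V) (w : V → ℝ) (hw : ∀ v, 0 ≤ w v) :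
    ∃ v, lam * ∑ u ∈ N1 D v, w u ≤ ∑ u ∈ N2 D v, w u := by
  obtain ⟨v, hv⟩ := main_aux h0 h1 (Fintype.card V) V rfl D w hw
  refine ⟨v, ?_⟩
  unfold Fw W at hv
  linarith

end Vale.Agent.P038.H139
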