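import Vale.Agent.P038.H139.Steps

/-!
# Step 3: the inequality (G) for an arbitrary set
-/

namespace Vale.Agent.P038.H139

open Finset

variable {V : Type*} [Fintype V]

/-- Delete all arcs from `X` to `Z`. -/
def del (D : OGraph V) (X Z : Finset V) : OGraph V where
  arc a b := D.arc a b ∧ ¬ (a ∈ X ∧ b ∈ Z)
  loopless v h := D.loopless v h.1
  asymm _ _ h h' := D.asymm _ _ h.1 h'.1

/-- Step 3: (G) for every set `X`. -/
theorem step3 [DecidableEq V] {lam : ℝ} {D : OGraph V} {w : V → ℝ} (h : Opt lam D w)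
    (X : Finset V) :
    W w (outS D (outS D X \ X) \ (X ∪ (outS D X \ X))) ≤ lam * W w (outS D X \ X) := by
  classical
  set L := outS D X \ X with hL
  -- the function d
  set d : Finset V → ℝ := fun T => W w (cl D T \ X) - (1 + lam) * W w T with hd
  have hLX : Disjoint L X := Finset.sdiff_disjoint
  -- d L in terms of the statement
  have hdL : d L = W w (outS D L \ (X ∪ L)) - lam * W w L := by
    have e1 : cl D L \ X = (outS D L \ (X ∪ L)) ∪ L := by
      ext z
      simp only [Finset.mem_sdiff, Finset.mem_union, mem_cl, mem_outS]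
      constructor
      · rintro ⟨h1 | h1, h2⟩
        · exact Or.inr h1
        · by_cases hz : z ∈ L
          · exact Or.inr hz
          · exact Or.inl ⟨h1, fun h3 => h3.elim h2 hz⟩
      · rintro (⟨h1, h2⟩ | h1)
        · exact ⟨Or.inr h1, fun h3 => h2 (Or.inl h3)⟩
        · exact ⟨Or.inl h1, fun h3 => Finset.disjoint_left.1 hLX h1 h3⟩
    have e2 : Disjoint (outS D L \ (X ∪ L)) L := by
      rw [Finset.disjoint_left]
      intro z hz hz'
      exact (Finset.mem_sdiff.1 hz).2 (Finset.mem_union_right _ hz')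
    simp only [hd]
    rw [e1, W_union e2]
    ring
  by_contra hcon
  push Not at hcon
  have hdLpos : 0 < d L := by rw [hdL]; linarith
  have hd0 : d ∅ = 0 := by
    have : cl D (∅ : Finset V) = ∅ := by
      rw [Finset.eq_empty_iff_forall_notMem]
      intro z hz
      rw [mem_cl] at hz
      simp at hz
    simp [hd, this, W]
  -- minimiser of d among the subsets of L
  obtain ⟨T0, hT0, hT0min⟩ := Finset.exists_min_image L.powerset d ⟨∅, Finset.empty_mem_powerset _⟩
  -- among the minimisers the one with most elements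
  obtain ⟨T, hT, hTmax⟩ := Finset.exists_max_image (L.powerset.filter fun T => d T = d T0)
    Finset.card ⟨T0, Finset.mem_filter.2 ⟨hT0, rfl⟩⟩
  obtain ⟨hTL, hTd⟩ := Finset.mem_filter.1 hT
  rw [Finset.mem_powerset] at hTL
  have hmin : ∀ S ⊆ L, d T ≤ d S := by
    intro S hS
    rw [hTd]
    exact hT0min S (Finset.mem_powerset.2 hS)
  have hstrict : ∀ S ⊆ L, T ⊂ S → d T < d S := by
    intro S hS hTS
    rcases lt_or_eq_of_le (hmin S hS) with h1 | h1
    · exact h1
    · exfalso
      have := hTmax S (Finset.mem_filter.2 ⟨Finset.mem_powerset.2 hS, h1.symm.trans hTd⟩)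
      have h2 := Finset.card_lt_card hTS
      omega
  have hTne : T ≠ L := by
    rintro hTe
    have h1 := hmin ∅ (Finset.empty_subset _)
    rw [hTe, hd0] at h1
    linarith
  set Z := L \ T with hZ
  set D' := del D X Z with hD'
  -- E_y
  have key : ∀ y ∈ X, Fw lam D w y + (W w ((cl D (N1 D y ∩ Z)) \ (cl D T ∪ X))
      - (1 + lam) * W w (N1 D y ∩ Z)) ≤ Fw lam D' w y := by
    intro y hy
    set Dy := N1 D y ∩ Z with hDy
    set Ey := cl D Dy \ (cl D T ∪ X) with hEy
    have hN1 : N1 D' y = N1 D y \ Dy := by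
      ext z
      rw [mem_N1, Finset.mem_sdiff, hDy, Finset.mem_inter, mem_N1]
      constructor
      · rintro ⟨h1, h2⟩
        exact ⟨h1, fun h3 => h2 ⟨hy, h3.2⟩⟩
      · rintro ⟨h1, h2⟩
        exact ⟨h1, fun h3 => h2 ⟨h1, h3.2⟩⟩
    have hEsub : Ey ⊆ N2 D y ∪ Dy := by
      intro z hz
      obtain ⟨hz1, hz2⟩ := Finset.mem_sdiff.1 hz
      have hzX : z ∉ X := fun h3 => hz2 (Finset.mem_union_right _ h3)
      have hzT : z ∉ cl D T := fun h3 => hz2 (Finset.mem_union_left _ h3)
      rw [mem_cl] at hz1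
      rcases hz1 with hz1 | ⟨c, hc, hcz⟩
      · exact Finset.mem_union_right _ hz1
      · have hyc : D.arc y c := mem_N1.1 (Finset.mem_inter.1 hc).1
        by_cases hyz : D.arc y z
        · refine Finset.mem_union_right _ (Finset.mem_inter.2 ⟨mem_N1.2 hyz, ?_⟩)
          refine Finset.mem_sdiff.2 ⟨?_, ?_⟩
          · rw [hL]
            exact Finset.mem_sdiff.2 ⟨mem_outS.2 ⟨y, hy, hyz⟩, hzX⟩
          · intro h3
            exact hzT (mem_cl.2 (Or.inl h3))
        · refine Finset.mem_union_left _ (mem_N2.2 ⟨?_, hyz, c, hyc, hcz⟩)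
          rintro rfl
          exact hzX hy
    have hN2 : N2 D' y ⊆ (N2 D y ∪ Dy) \ Ey := by
      intro z hz
      rw [mem_N2] at hz
      obtain ⟨hzy, hnz, c, hyc, hcz⟩ := hz
      refine Finset.mem_sdiff.2 ⟨?_, ?_⟩
      · by_cases hyz : D.arc y z
        · refine Finset.mem_union_right _ (Finset.mem_inter.2 ⟨mem_N1.2 hyz, ?_⟩)
          by_contra hzZ
          exact hnz ⟨hyz, fun h3 => hzZ h3.2⟩
        · exact Finset.mem_union_left _ (mem_N2.2 ⟨hzy, hyz, c, hyc.1, hcz.1⟩)
      · intro hzE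
        obtain ⟨_, hz2⟩ := Finset.mem_sdiff.1 hzE
        have hzX : z ∉ X := fun h3 => hz2 (Finset.mem_union_right _ h3)
        have hzT : z ∉ cl D T := fun h3 => hz2 (Finset.mem_union_left _ h3)
        by_cases hcX : c ∈ X
        · have hzL : z ∈ L := by
            rw [hL]
            exact Finset.mem_sdiff.2 ⟨mem_outS.2 ⟨c, hcX, hcz.1⟩, hzX⟩
          have hzZ : z ∈ Z := Finset.mem_sdiff.2 ⟨hzL, fun h3 => hzT (mem_cl.2 (Or.inl h3))⟩
          exact hcz.2 ⟨hcX, hzZ⟩
        · have hcL : c ∈ L := by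
            rw [hL]
            exact Finset.mem_sdiff.2 ⟨mem_outS.2 ⟨y, hy, hyc.1⟩, hcX⟩
          have hcT : c ∈ T := by
            by_contra hcT
            exact hyc.2 ⟨hy, Finset.mem_sdiff.2 ⟨hcL, hcT⟩⟩
          exact hzT (mem_cl.2 (Or.inr ⟨c, hcT, hcz.1⟩))
    have h1 := W_mono h.nonneg hN2
    rw [W_sdiff hEsub, W_union (by
      rw [Finset.disjoint_left]
      intro z hz hz'
      exact (mem_N2.1 hz).2.1 (mem_N1.1 (Finset.mem_inter.1 hz').1))] at h1
    have h2 : W w (N1 D' y) = W w (N1 D y) - W w Dy := by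
      rw [hN1, W_sdiff Finset.inter_subset_left]
    unfold Fw
    rw [h2]
    nlinarith
  have hE : ∀ y, N1 D y ∩ Z ≠ ∅ → (1 + lam) * W w (N1 D y ∩ Z) <
      W w ((cl D (N1 D y ∩ Z)) \ (cl D T ∪ X)) := by
    intro y hne
    set Dy := N1 D y ∩ Z with hDy
    have hDyL : Dy ⊆ L := Finset.inter_subset_right.trans Finset.sdiff_subset
    have hDT : Disjoint T Dy := by
      rw [Finset.disjoint_left]
      intro z hz hz'
      exact (Finset.mem_sdiff.1 (Finset.mem_inter.1 hz').2).2 hz
    have hss : T ⊂ T ∪ Dy := by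
      refine Finset.ssubset_iff_subset_ne.2 ⟨Finset.subset_union_left, ?_⟩
      intro he
      obtain ⟨z, hz⟩ := Finset.nonempty_iff_ne_empty.2 hne
      have : z ∈ T := by
        rw [he]
        exact Finset.mem_union_right _ hz
      exact Finset.disjoint_left.1 hDT this hz
    have h1 := hstrict (T ∪ Dy) (Finset.union_subset hTL hDyL) hss
    have e1 : cl D (T ∪ Dy) \ X = (cl D T \ X) ∪ (cl D Dy \ (cl D T ∪ X)) := by
      rw [cl_union]
      ext z
      simp only [Finset.mem_sdiff, Finset.mem_union]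
      tauto
    have e2 : Disjoint (cl D T \ X) (cl D Dy \ (cl D T ∪ X)) := by
      rw [Finset.disjoint_left]
      intro z hz hz'
      exact (Finset.mem_sdiff.1 hz').2 (Finset.mem_union_left _ (Finset.mem_sdiff.1 hz).1)
    simp only [hd] at h1
    rw [e1, W_union e2, W_union hDT] at h1
    nlinarith
  have hall : ∀ v, 1 ≤ Fw lam D' w v := by
    intro v
    by_cases hv : v ∈ X
    · have h1 := key v hv
      rw [h.one v] at h1
      by_cases hne : N1 D v ∩ Z = ∅
      · rw [hne] at h1
        have h2 : W w (∅ : Finset V) = 0 := by simp [W]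
        have h3 := W_nonneg h.nonneg (cl D (∅ : Finset V) \ (cl D T ∪ X))
        rw [h2] at h1
        linarith
      · have h2 := hE v hne
        linarith
    · have h1 : N1 D' v = N1 D v := by
        ext z
        rw [mem_N1, mem_N1]
        exact ⟨fun h3 => h3.1, fun h3 => ⟨h3, fun h4 => hv h4.1⟩⟩
      have h2 : N2 D' v ⊆ N2 D v := by
        intro z hz
        rw [mem_N2] at hz ⊢
        obtain ⟨hzv, hnz, c, hvc, hcz⟩ := hz
        exact ⟨hzv, fun h3 => hnz ⟨h3, fun h4 => hv h4.1⟩, c, hvc.1, hcz.1⟩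
      have h3 := W_mono h.nonneg h2
      have h4 := h.one v
      unfold Fw at h4 ⊢
      rw [h1]
      linarith
  -- a row which really changes
  have hZne : Z.Nonempty := by
    rw [Finset.nonempty_iff_ne_empty]
    intro hZe
    apply hTne
    apply Finset.Subset.antisymm hTL
    rw [hZ, Finset.sdiff_eq_empty_iff_subset] at hZe
    exact hZe
  obtain ⟨z, hz⟩ := hZne
  have hzL : z ∈ L := (Finset.mem_sdiff.1 hz).1
  rw [hL] at hzL
  obtain ⟨y, hy, hyz⟩ := mem_outS.1 (Finset.mem_sdiff.1 hzL).1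
  have hne : N1 D y ∩ Z ≠ ∅ := by
    intro he
    have : z ∈ N1 D y ∩ Z := Finset.mem_inter.2 ⟨mem_N1.2 hyz, hz⟩
    rw [he] at this
    simp at this
  have h1 := key y hy
  have h2 := hE y hne
  rw [h.one y] at h1
  exact h.not_lt hall y (by linarith)

/-- Step 7. -/
theorem step7 [DecidableEq V] {lam : ℝ} {D : OGraph V} {w : V → ℝ} (h : Opt lam D w) (x : V) :
    W w (Finset.univ.filter fun u => x ∈ N1 D u) ≤
      W w (Finset.univ.filter fun u => x ∈ Hb D u) +
        lam * W w (Finset.univ.filter fun u => x ∈ N2 D u) := by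
  classical
  set A := Finset.univ.filter fun u => x ∈ N1 D u with hA
  set B := Finset.univ.filter fun u => x ∈ N2 D u with hB
  set C := Finset.univ.filter fun u => x ∈ Hb D u with hC
  have mA : ∀ u, u ∈ A ↔ D.arc u x := fun u => by simp [hA, mem_N1]
  have mB : ∀ u, u ∈ B ↔ (x ≠ u ∧ ¬ D.arc u x ∧ ∃ c, D.arc u c ∧ D.arc c x) :=
    fun u => by simp [hB, mem_N2]
  have mC : ∀ u, u ∈ C ↔ x ∈ Hb D u := fun u => by simp [hC]
  set X : Finset V := Finset.univ \ (A ∪ B) with hX
  have mX : ∀ u, u ∈ X ↔ (u ∉ A ∧ u ∉ B) := fun u => by simp [hX]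
  have hxX : x ∈ X := by
    rw [mX]
    refine ⟨fun h1 => D.loopless x ((mA x).1 h1), fun h1 => ((mB x).1 h1).1 rfl⟩
  have h3 := step3 h X
  set L := outS D X \ X with hL
  have hLB : L ⊆ B := by
    intro z hz
    obtain ⟨hz1, hz2⟩ := Finset.mem_sdiff.1 hz
    obtain ⟨y, hy, hyz⟩ := mem_outS.1 hz1
    by_contra hzB
    have hzA : z ∈ A := by
      by_contra hzA
      exact hz2 ((mX z).2 ⟨hzA, hzB⟩)
    have hzx := (mA z).1 hzA
    have hyX := (mX y).1 hy
    by_cases hxy : x = y
    · subst hxy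
      exact D.asymm _ _ hyz hzx
    · apply hyX.2
      rw [mB]
      exact ⟨hxy, fun h1 => hyX.1 ((mA y).2 h1), z, hyz, hzx⟩
  have hsub : A ⊆ C ∪ (outS D L \ (X ∪ L)) := by
    intro u hu
    have hux := (mA u).1 hu
    by_cases hin : ∃ q ∈ L, D.arc q u
    · apply Finset.mem_union_right
      refine Finset.mem_sdiff.2 ⟨mem_outS.2 hin, ?_⟩
      intro h1
      rcases Finset.mem_union.1 h1 with h1 | h1
      · exact ((mX u).1 h1).1 hu
      · exact ((mB u).1 (hLB h1)).2.1 hux
    · apply Finset.mem_union_left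
      rw [mC, mem_Hb]
      refine ⟨hux, ?_⟩
      intro q hqu
      by_cases hqx : D.arc q x
      · exact inR_of_arc hqx
      · have hxq : x ≠ q := by
          rintro rfl
          exact D.asymm _ _ hqu hux
        have hqB : q ∈ B := (mB q).2 ⟨hxq, hqx, u, hqu, hux⟩
        have hqL : q ∉ L := fun h1 => hin ⟨q, h1, hqu⟩
        have hqX : q ∉ X := fun h1 => ((mX q).1 h1).2 hqB
        have hno : ∀ s, D.arc s q → s ∉ X := by
          intro s hsq hsX
          exact hqL (Finset.mem_sdiff.2 ⟨mem_outS.2 ⟨s, hsX, hsq⟩, hqX⟩)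
        refine ⟨hxq, fun h1 => hno x h1 hxX, ?_⟩
        intro s hsq
        have hs := hno s hsq
        rw [mX] at hs
        by_cases hsA : s ∈ A
        · exact Or.inl (mem_N1.2 ((mA s).1 hsA))
        · right
          by_contra hsB
          exact hs ⟨hsA, fun h1 => hsB (mem_N2.2 ((mB s).1 h1))⟩
  have h4 : W w A ≤ W w C + W w (outS D L \ (X ∪ L)) := by
    refine (W_mono h.nonneg hsub).trans ?_
    have h5 := Finset.sum_union_inter (f := w) (s₁ := C) (s₂ := outS D L \ (X ∪ L))
    have h6 := W_nonneg h.nonneg (C ∩ (outS D L \ (X ∪ L)))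
    unfold W at h6 ⊢
    linarith
  have h5 := mul_le_mul_of_nonneg_left (W_mono h.nonneg hLB) h.lam_nonneg
  linarith

/-- Steps 7 and 8. -/
theorem step8 [Nonempty V] {lam : ℝ} {D : OGraph V} {w : V → ℝ} (h : Opt lam D w) :
    1 < lam ^ 2 + lam ^ 3 := by
  classical
  have hswap : ∀ S : V → Finset V, ∑ x, w x * W w (Finset.univ.filter fun u => x ∈ S u)
      = ∑ u, w u * W w (S u) := by
    intro S
    have e1 : ∀ x, w x * W w (Finset.univ.filter fun u => x ∈ S u) =
        ∑ u, if x ∈ S u then w x * w u else 0 := by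
      intro x
      unfold W
      rw [Finset.sum_filter, Finset.mul_sum]
      refine Finset.sum_congr rfl fun u _ => ?_
      split_ifs <;> simp
    have e2 : ∀ u, w u * W w (S u) = ∑ x, if x ∈ S u then w x * w u else 0 := by
      intro u
      unfold W
      rw [← Finset.sum_filter, Finset.mul_sum]
      have : (Finset.univ.filter fun x => x ∈ S u) = S u := by
        ext x
        simp
      rw [this]
      exact Finset.sum_congr rfl fun x _ => mul_comm _ _
    rw [Finset.sum_congr rfl fun x _ => e1 x, Finset.sum_congr rfl fun u _ => e2 u,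
      Finset.sum_comm]
  set a := ∑ u, w u * W w (N1 D u) with ha
  set b := ∑ u, w u * W w (N2 D u) with hb
  set c := ∑ u, w u * W w (Hb D u) with hc
  have h1 : a ≤ c + lam * b := by
    rw [ha, hb, hc, ← hswap (N1 D), ← hswap (N2 D), ← hswap (Hb D), Finset.mul_sum,
      ← Finset.sum_add_distrib]
    refine Finset.sum_le_sum fun x _ => ?_
    have h2 := mul_le_mul_of_nonneg_left (step7 h x) (h.nonneg x)
    linarith
  have h2 : (1 + lam) * c ≤ b := by
    rw [hb, hc, Finset.mul_sum]
    refine Finset.sum_le_sum fun u _ => ?_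
    have h2 := mul_le_mul_of_nonneg_left (step6 h u) (h.nonneg u)
    linarith
  have h3 : 0 < lam * a - b := by
    have h4 : lam * a - b = ∑ u, w u := by
      rw [ha, hb, Finset.mul_sum, ← Finset.sum_sub_distrib]
      refine Finset.sum_congr rfl fun u _ => ?_
      have := h.one u
      unfold Fw at this
      linear_combination w u * this
    rw [h4]
    exact Finset.sum_pos (fun v _ => h.pos v) Finset.univ_nonempty
  have hb0 : 0 ≤ b := Finset.sum_nonneg fun u _ =>
    mul_nonneg (h.nonneg u) (W_nonneg h.nonneg _)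
  have hl := h.lam_nonneg
  -- (1+lam) b < lam (1+lam) a <= lam (b + lam (1+lam) b)
  have h5 : (1 + lam) * b < lam * (b + lam * (1 + lam) * b) := by
    have h6 : (1 + lam) * b < (1 + lam) * (lam * a) := by nlinarith
    have h7 : (1 + lam) * a ≤ b + lam * (1 + lam) * b := by nlinarith
    have h8 : lam * ((1 + lam) * a) ≤ lam * (b + lam * (1 + lam) * b) :=
      mul_le_mul_of_nonneg_left h7 hl
    linarith
  have hb1 : 0 < b := by
    rcases hb0.lt_or_eq with h6 | h6
    · exact h6
    · rw [← h6] at h5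
      simp at h5
  by_contra hcon
  push Not at hcon
  have : lam * (b + lam * (1 + lam) * b) - (1 + lam) * b = b * (lam ^ 2 + lam ^ 3 - 1) := by ring
  nlinarith

end Vale.Agent.P038.H139
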