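import Vale.Agent.P038.H139.Basic

/-!
# Monotone matrices
-/

namespace Vale.Agent.P038.H139

open Finset

theorem la {V : Type*} [Fintype V] [DecidableEq V] (M : Matrix V V ℝ)
    (h : ∀ x : V → ℝ, (∀ v, 0 ≤ M.mulVec x v) → ∀ v, 0 ≤ x v) (b : V → ℝ)
    (hb : ∀ v, 0 ≤ b v) :
    (∃ x, (∀ v, 0 ≤ x v) ∧ M.mulVec x = b) ∧
      ∃ p, (∀ v, 0 ≤ p v) ∧ M.transpose.mulVec p = b := by
  have hinj : Function.Injective M.mulVec := by
    intro x y hxy
    have h1 : M.mulVec (x - y) = 0 := by rw [Matrix.mulVec_sub, hxy, sub_self]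
    have h2 : M.mulVec (y - x) = 0 := by rw [Matrix.mulVec_sub, hxy, sub_self]
    funext v
    have h3 := h (x - y) (fun v => by rw [h1]; exact le_rfl) v
    have h4 := h (y - x) (fun v => by rw [h2]; exact le_rfl) v
    simp only [Pi.sub_apply] at h3 h4
    linarith
  have hu : IsUnit M := Matrix.mulVec_injective_iff_isUnit.1 hinj
  have hdet : IsUnit M.det := (Matrix.isUnit_iff_isUnit_det M).1 hu
  have hpos : ∀ i j, 0 ≤ M⁻¹ i j := by
    intro i j
    have h1 : M.mulVec (M⁻¹.mulVec (Pi.single j 1)) = Pi.single j 1 := by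
      rw [Matrix.mulVec_mulVec, Matrix.mul_nonsing_inv M hdet, Matrix.one_mulVec]
    have h2 := h (M⁻¹.mulVec (Pi.single j 1)) (fun v => by
      rw [h1]
      by_cases hv : v = j
      · subst hv; simp
      · simp [hv]) i
    rwa [Matrix.mulVec_single_one, Matrix.col_apply] at h2
  refine ⟨⟨M⁻¹.mulVec b, fun v => ?_, ?_⟩, ⟨M⁻¹.transpose.mulVec b, fun v => ?_, ?_⟩⟩
  · exact Finset.sum_nonneg fun j _ => mul_nonneg (hpos v j) (hb j)
  · rw [Matrix.mulVec_mulVec, Matrix.mul_nonsing_inv M hdet, Matrix.one_mulVec]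
  · exact Finset.sum_nonneg fun j _ => mul_nonneg (hpos j v) (hb j)
  · rw [Matrix.mulVec_mulVec, ← Matrix.transpose_mul, Matrix.nonsing_inv_mul M hdet,
      Matrix.transpose_one, Matrix.one_mulVec]

end Vale.Agent.P038.H139
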