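import Vale.Agent.P038.H139.NF

/-!
# Relations on `V × V` as families of rows (P038)

`B : V → Finset V` is the relation `{(a, x) : x ∈ B a}`; `mu w B = Σ_a w_a w(B_a)` is its weight.
`oE` dilates rows forward, `oI` erodes rows, `oA` erodes columns, `oJ` dilates columns backward.
-/

namespace Vale.Agent.P038.H139

open Finset

universe u

variable {V : Type u} [Fintype V]

/-- `y ∈ N⁺[x]`. -/
def Nb (D : OGraph V) (x y : V) : Prop := x = y ∨ D.arc x y

theorem Nb.refl (D : OGraph V) (x : V) : Nb D x x := Or.inl rfl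

theorem Nb.antisymm {D : OGraph V} {x y : V} (h : Nb D x y) (h' : Nb D y x) : x = y := by
  rcases h with h | h
  · exact h
  · rcases h' with h' | h'
    · exact h'.symm
    · exact absurd h' (D.asymm _ _ h)

theorem mem_cl' {D : OGraph V} {S : Finset V} {z : V} : z ∈ cl D S ↔ ∃ y ∈ S, Nb D y z := by
  rw [mem_cl]
  constructor
  · rintro (h | ⟨y, hy, h⟩)
    · exact ⟨z, h, Or.inl rfl⟩
    · exact ⟨y, hy, Or.inr h⟩
  · rintro ⟨y, hy, h | h⟩
    · exact Or.inl (h ▸ hy)
    · exact Or.inr ⟨y, hy, h⟩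

/-- The weight of a relation. -/
noncomputable def mu (w : V → ℝ) (B : V → Finset V) : ℝ := ∑ a, w a * W w (B a)

open Classical in
/-- The column of `b`. -/
noncomputable def col (B : V → Finset V) (b : V) : Finset V := Finset.univ.filter fun a => b ∈ B a

theorem mem_col {B : V → Finset V} {b a : V} : a ∈ col B b ↔ b ∈ B a := by
  classical
  simp [col]

theorem mu_col (w : V → ℝ) (B : V → Finset V) : mu w B = ∑ b, w b * W w (col B b) := by
  classical
  have h1 : ∀ a, w a * W w (B a) = ∑ b, if b ∈ B a then w a * w b else 0 := by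
    intro a
    unfold W
    rw [Finset.mul_sum, ← Finset.sum_filter]
    exact Finset.sum_congr (by ext; simp) fun _ _ => rfl
  have h2 : ∀ b, w b * W w (col B b) = ∑ a, if b ∈ B a then w a * w b else 0 := by
    intro b
    unfold W col
    rw [Finset.mul_sum, ← Finset.sum_filter]
    exact Finset.sum_congr (by ext; simp) fun _ _ => mul_comm _ _
  unfold mu
  rw [Finset.sum_congr rfl fun a _ => h1 a, Finset.sum_congr rfl fun b _ => h2 b]
  exact Finset.sum_comm

theorem mu_mono {w : V → ℝ} (hw : ∀ v, 0 ≤ w v) {B C : V → Finset V} (h : ∀ a, B a ⊆ C a) :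
    mu w B ≤ mu w C :=
  Finset.sum_le_sum fun a _ => mul_le_mul_of_nonneg_left (W_mono hw (h a)) (hw a)

theorem mu_sdiff [DecidableEq V] {w : V → ℝ} {B C : V → Finset V} (h : ∀ a, C a ⊆ B a) :
    mu w (fun a => B a \ C a) = mu w B - mu w C := by
  unfold mu
  rw [← Finset.sum_sub_distrib]
  refine Finset.sum_congr rfl fun a _ => ?_
  rw [W_sdiff (h a)]
  ring

/-- Forward dilation of the rows. -/
noncomputable def oE (D : OGraph V) (B : V → Finset V) (a : V) : Finset V := cl D (B a)

open Classical in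
/-- Erosion of the rows. -/
noncomputable def oI (D : OGraph V) (B : V → Finset V) (a : V) : Finset V :=
  Finset.univ.filter fun x => ∀ y, Nb D x y → y ∈ B a

open Classical in
/-- Erosion of the columns. -/
noncomputable def oA (D : OGraph V) (B : V → Finset V) (z : V) : Finset V :=
  Finset.univ.filter fun b => ∀ z', Nb D z' z → b ∈ B z'

open Classical in
/-- Backward dilation of the columns. -/
noncomputable def oJ (D : OGraph V) (B : V → Finset V) (x : V) : Finset V :=
  Finset.univ.filter fun b => ∃ y, Nb D x y ∧ b ∈ B y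

theorem mem_oE {D : OGraph V} {B : V → Finset V} {a u : V} :
    u ∈ oE D B a ↔ ∃ x ∈ B a, Nb D x u := mem_cl'

theorem mem_oI {D : OGraph V} {B : V → Finset V} {a x : V} :
    x ∈ oI D B a ↔ ∀ y, Nb D x y → y ∈ B a := by
  classical
  simp [oI]

theorem mem_oA {D : OGraph V} {B : V → Finset V} {z b : V} :
    b ∈ oA D B z ↔ ∀ z', Nb D z' z → b ∈ B z' := by
  classical
  simp [oA]

theorem mem_oJ {D : OGraph V} {B : V → Finset V} {x b : V} :
    b ∈ oJ D B x ↔ ∃ y, Nb D x y ∧ b ∈ B y := by
  classical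
  simp [oJ]

/-- Feasible pairs: `R ⊆ B ⊆ U` and `U ∩ Rᵀ = Δ`, where `R` is the reflexive arc relation. -/
structure Feas (D : OGraph V) (B U : V → Finset V) : Prop where
  arc : ∀ a x, Nb D a x → x ∈ B a
  sub : ∀ a x, x ∈ B a → x ∈ U a
  anti : ∀ a x, x ∈ U a → Nb D x a → a = x

/-- The inner boundary cost. -/
noncomputable def Ni (D : OGraph V) (w : V → ℝ) (B U : V → Finset V) : ℝ :=
  mu w B - mu w (oI D B) + mu w (oJ D U) - mu w U

/-- The outer boundary cost. -/
noncomputable def No (D : OGraph V) (w : V → ℝ) (B U : V → Finset V) : ℝ :=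
  mu w (oE D B) - mu w B + mu w U - mu w (oA D U)

/-- Row Hall condition. -/
def RowHall [DecidableEq V] (D : OGraph V) (w : V → ℝ) (B U : V → Finset V) : Prop :=
  ∀ a, ∀ T, T ⊆ U a \ B a → W w T ≤ W w (cl D T \ cl D (B a))

/-- Column Hall condition. -/
def ColHall [DecidableEq V] (D : OGraph V) (w : V → ℝ) (B U : V → Finset V) : Prop :=
  ∀ x, ∀ T : Finset V, (∀ z ∈ T, x ∈ U z \ B z) → W w T ≤ W w (cl D T ∩ col (oA D U) x)

end Vale.Agent.P038.H139
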