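import Vale.Agent.P038.H139.Rel

/-!
# Tools for (★): the Hall conditions, the layer cake lemma, the rank function (P038)
-/

namespace Vale.Agent.P038.H139

open Finset

universe u

variable {V : Type u} [Fintype V]

theorem W_add_le [DecidableEq V] {w : V → ℝ} (hw : ∀ v, 0 ≤ w v) {A1 A2 B1 B2 : Finset V}
    (h1 : A1 ∪ A2 ⊆ B1 ∪ B2) (h2 : A1 ∩ A2 ⊆ B1 ∩ B2) : W w A1 + W w A2 ≤ W w B1 + W w B2 := by
  have e1 : W w (A1 ∪ A2) + W w (A1 ∩ A2) = W w A1 + W w A2 := Finset.sum_union_inter
  have e2 : W w (B1 ∪ B2) + W w (B1 ∩ B2) = W w B1 + W w B2 := Finset.sum_union_inter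
  have e3 := W_mono hw h1
  have e4 := W_mono hw h2
  linarith

/-- The value of `T`. -/
noncomputable def vv [DecidableEq V] (D : OGraph V) (w : V → ℝ) (b S T : Finset V) : ℝ :=
  W w T - W w ((cl D T \ b) \ S)

/-- The maximal value over `T ⊆ G`. -/
noncomputable def mm [DecidableEq V] (D : OGraph V) (w : V → ℝ) (G b S : Finset V) : ℝ :=
  G.powerset.sup' ⟨∅, Finset.empty_mem_powerset _⟩ (vv D w b S)

theorem mm_ge [DecidableEq V] {D : OGraph V} {w : V → ℝ} {G b S T : Finset V} (h : T ⊆ G) :
    vv D w b S T ≤ mm D w G b S :=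
  Finset.le_sup' (vv D w b S) (Finset.mem_powerset.2 h)

theorem mm_att [DecidableEq V] (D : OGraph V) (w : V → ℝ) (G b S : Finset V) :
    ∃ T ⊆ G, mm D w G b S = vv D w b S T := by
  obtain ⟨T, hT, h⟩ := Finset.exists_mem_eq_sup' (s := G.powerset)
    ⟨∅, Finset.empty_mem_powerset _⟩ (vv D w b S)
  exact ⟨T, Finset.mem_powerset.1 hT, h⟩

theorem cl_empty' (D : OGraph V) : cl D (∅ : Finset V) = ∅ := by
  ext z
  rw [mem_cl]
  simp

theorem mm_nonneg [DecidableEq V] (D : OGraph V) (w : V → ℝ) (G b S : Finset V) :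
    0 ≤ mm D w G b S := by
  have h := mm_ge (D := D) (w := w) (b := b) (S := S) (Finset.empty_subset G)
  unfold vv at h
  rw [cl_empty', Finset.empty_sdiff, Finset.empty_sdiff] at h
  simpa using h

theorem mm_univ [DecidableEq V] {D : OGraph V} {w : V → ℝ} (hw : ∀ v, 0 ≤ w v)
    (G b : Finset V) : mm D w G b Finset.univ = W w G := by
  have h0 : ∀ T : Finset V, vv D w b Finset.univ T = W w T := by
    intro T
    unfold vv
    have : (cl D T \ b) \ Finset.univ = ∅ := Finset.sdiff_eq_empty_iff_subset.2 (Finset.subset_univ _)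
    rw [this]
    simp [W]
  apply le_antisymm
  · obtain ⟨T, hT, h⟩ := mm_att D w G b Finset.univ
    rw [h, h0]
    exact W_mono hw hT
  · have h := mm_ge (D := D) (w := w) (b := b) (S := Finset.univ) (Finset.Subset.refl G)
    rw [h0] at h
    exact h

theorem mm_le_zero [DecidableEq V] {D : OGraph V} {w : V → ℝ} {G b : Finset V}
    (h : ∀ T ⊆ G, W w T ≤ W w (cl D T \ b)) : mm D w G b ∅ ≤ 0 := by
  obtain ⟨T, hT, h1⟩ := mm_att D w G b ∅
  rw [h1]
  unfold vv
  rw [Finset.sdiff_empty]
  linarith [h T hT]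

theorem mm_mono [DecidableEq V] {D : OGraph V} {w : V → ℝ} (hw : ∀ v, 0 ≤ w v)
    (G b S : Finset V) (u : V) : mm D w G b S ≤ mm D w G b (insert u S) := by
  obtain ⟨T, hT, h1⟩ := mm_att D w G b S
  rw [h1]
  refine le_trans ?_ (mm_ge hT)
  unfold vv
  have := W_mono hw (Finset.sdiff_subset_sdiff (Finset.Subset.refl (cl D T \ b))
    (Finset.subset_insert u S))
  linarith

theorem mm_insert_le [DecidableEq V] {D : OGraph V} {w : V → ℝ} (hw : ∀ v, 0 ≤ w v)
    (G b S : Finset V) (u : V) {K : Finset V} (hK : cl D G \ b ⊆ K) :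
    mm D w G b (insert u S) ≤ mm D w G b S + if u ∈ K then w u else 0 := by
  obtain ⟨T, hT, h1⟩ := mm_att D w G b (insert u S)
  have h2 := mm_ge (D := D) (w := w) (b := b) (S := S) hT
  rw [h1]
  unfold vv at h2 ⊢
  have h3 : W w ((cl D T \ b) \ S) ≤ W w ((cl D T \ b) \ insert u S) +
      if u ∈ K then w u else 0 := by
    by_cases hu : u ∈ K
    · rw [if_pos hu]
      have h4 : (cl D T \ b) \ S ⊆ ((cl D T \ b) \ insert u S) ∪ {u} := by
        intro z hz
        rw [Finset.mem_union, Finset.mem_singleton, Finset.mem_sdiff, Finset.mem_insert]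
        rw [Finset.mem_sdiff] at hz
        by_cases hzu : z = u
        · exact Or.inr hzu
        · exact Or.inl ⟨hz.1, fun h => h.elim hzu hz.2⟩
      have h5 := W_mono hw h4
      rw [W_union (by
        rw [Finset.disjoint_left]
        intro z hz hz'
        rw [Finset.mem_singleton] at hz'
        rw [Finset.mem_sdiff, Finset.mem_insert] at hz
        exact hz.2 (Or.inl hz'))] at h5
      have h6 : W w {u} = w u := Finset.sum_singleton _ _
      rw [h6] at h5
      exact h5
    · rw [if_neg hu, add_zero]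
      refine W_mono hw ?_
      intro z hz
      rw [Finset.mem_sdiff] at hz ⊢
      refine ⟨hz.1, ?_⟩
      rw [Finset.mem_insert]
      rintro (rfl | h)
      · exact hu (hK (Finset.mem_sdiff.2 ⟨cl_mono hT (Finset.mem_sdiff.1 hz.1).1,
          (Finset.mem_sdiff.1 hz.1).2⟩))
      · exact hz.2 h
  linarith

/-- (M): comparison of the increments. -/
theorem mm_cmp [DecidableEq V] {D : OGraph V} {w : V → ℝ} (hw : ∀ v, 0 ≤ w v)
    {P G B0 b S : Finset V} {u : V} (hb : b ⊆ cl D B0) (hPG : ∀ x ∈ P, x ∉ B0 → x ∈ G)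
    (hGB : Disjoint G B0) (hu : u ∉ cl D B0) (huS : u ∉ S) :
    mm D w P b (insert u S) + mm D w G (cl D B0) S ≤
      mm D w P b S + mm D w G (cl D B0) (insert u S) := by
  obtain ⟨T, hT, h1⟩ := mm_att D w P b (insert u S)
  obtain ⟨T', hT', h2⟩ := mm_att D w G (cl D B0) S
  have hT'B : Disjoint T' B0 := Finset.disjoint_of_subset_left hT' hGB
  have hT1 : (T ∩ B0) ∪ (T ∩ T') ⊆ P :=
    Finset.union_subset (Finset.inter_subset_left.trans hT) (Finset.inter_subset_left.trans hT)
  have hT2 : T' ∪ (T \ B0) ⊆ G := by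
    refine Finset.union_subset hT' ?_
    intro x hx
    rw [Finset.mem_sdiff] at hx
    exact hPG x (hT hx.1) hx.2
  have h3 := mm_ge (D := D) (w := w) (b := b) (S := S) hT1
  have h4 := mm_ge (D := D) (w := w) (b := cl D B0) (S := insert u S) hT2
  rw [h1, h2]
  unfold vv at h3 h4 ⊢
  have hTT : cl D (T ∩ B0 ∪ T ∩ T') ⊆ cl D T :=
    cl_mono (Finset.union_subset Finset.inter_subset_left Finset.inter_subset_left)
  have hTT2 : ∀ v, v ∈ cl D (T ∩ B0 ∪ T ∩ T') → v ∉ cl D B0 → v ∈ cl D T' := by
    intro v hv hvB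
    rw [cl_union, Finset.mem_union] at hv
    rcases hv with hv | hv
    · exact absurd (cl_mono Finset.inter_subset_right hv) hvB
    · exact cl_mono Finset.inter_subset_right hv
  have hTT3 : ∀ v, v ∈ cl D (T' ∪ T \ B0) → v ∈ cl D T' ∨ v ∈ cl D T := by
    intro v hv
    rw [cl_union, Finset.mem_union] at hv
    exact hv.imp id (fun h => cl_mono Finset.sdiff_subset h)
  have hW : W w (T ∩ B0 ∪ T ∩ T') + W w (T' ∪ T \ B0) = W w T + W w T' := by
    have e1 : Disjoint (T ∩ B0) (T ∩ T') := by
      rw [Finset.disjoint_left] at hT'B ⊢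
      intro x hx hx'
      exact hT'B (Finset.mem_inter.1 hx').2 (Finset.mem_inter.1 hx).2
    have e2 : W w (T' ∪ T \ B0) + W w (T' ∩ (T \ B0)) = W w T' + W w (T \ B0) :=
      Finset.sum_union_inter
    have e3 : T' ∩ (T \ B0) = T ∩ T' := by
      ext x
      rw [Finset.mem_inter, Finset.mem_sdiff, Finset.mem_inter]
      constructor
      · rintro ⟨h, h', -⟩
        exact ⟨h', h⟩
      · rintro ⟨h, h'⟩
        exact ⟨h', h, fun h'' => (Finset.disjoint_left.1 hT'B) h' h''⟩
    have e4 : W w (T ∩ B0) + W w (T \ B0) = W w T := by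
      have h5 : T \ B0 = T \ (T ∩ B0) := by
        ext x
        simp only [Finset.mem_sdiff, Finset.mem_inter]
        tauto
      rw [h5, W_sdiff Finset.inter_subset_left]
      ring
    rw [e3] at e2
    rw [W_union e1]
    linarith
  have hcost : W w ((cl D (T ∩ B0 ∪ T ∩ T') \ b) \ S) +
      W w ((cl D (T' ∪ T \ B0) \ cl D B0) \ insert u S) ≤
      W w ((cl D T \ b) \ insert u S) + W w ((cl D T' \ cl D B0) \ S) := by
    refine W_add_le hw ?_ ?_
    · intro v hv
      simp only [Finset.mem_union, Finset.mem_sdiff, Finset.mem_insert] at hv ⊢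
      rcases hv with ⟨⟨hv1, hv2⟩, hv3⟩ | ⟨⟨hv1, hv2⟩, hv3⟩
      · by_cases hvu : v = u
        · subst hvu
          exact Or.inr ⟨⟨hTT2 v (by simpa using hv1) hu, hu⟩, huS⟩
        · exact Or.inl ⟨⟨hTT (by simpa using hv1), hv2⟩, fun h => h.elim hvu hv3⟩
      · rcases hTT3 v (by simpa using hv1) with h | h
        · exact Or.inr ⟨⟨h, hv2⟩, fun h' => hv3 (Or.inr h')⟩
        · exact Or.inl ⟨⟨h, fun h' => hv2 (hb h')⟩, hv3⟩
    · intro v hv
      simp only [Finset.mem_inter, Finset.mem_sdiff, Finset.mem_insert] at hv ⊢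
      obtain ⟨⟨⟨hv1, hv2⟩, hv3⟩, ⟨⟨hv4, hv5⟩, hv6⟩⟩ := hv
      exact ⟨⟨⟨hTT hv1, hv2⟩, hv6⟩, ⟨⟨hTT2 v hv1 hv5, hv5⟩, hv3⟩⟩
  linarith

/-- The layer cake lemma. -/
theorem layer [DecidableEq V] {D : OGraph V} {w : V → ℝ} (hw : ∀ v, 0 ≤ w v)
    {Q K : Finset V} (hall : ∀ T ⊆ Q, W w T ≤ W w (cl D T ∩ K)) (n : ℕ) :
    ∀ e' e : V → ℝ, (∀ v, 0 ≤ e' v) → (∀ v, 0 ≤ e v) → (∀ v, v ∉ Q → e' v = 0) →
      (∀ z' ∈ Q, ∀ z ∈ K, Nb D z' z → e' z' ≤ e z) →
      (Finset.univ.filter fun v => e' v ≠ 0).card ≤ n →
      ∑ v, w v * e' v ≤ ∑ v, w v * e v := by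
  induction n with
  | zero =>
    intro e' e h1 h2 h3 h4 h5
    have h6 : ∀ v, e' v = 0 := by
      intro v
      by_contra hv
      have h7 : v ∈ Finset.univ.filter fun v => e' v ≠ 0 := by simp [hv]
      have h8 := Finset.card_pos.2 ⟨v, h7⟩
      omega
    have h9 : ∑ v, w v * e' v = 0 := Finset.sum_eq_zero fun v _ => by rw [h6 v, mul_zero]
    rw [h9]
    exact Finset.sum_nonneg fun v _ => mul_nonneg (hw v) (h2 v)
  | succ n ih =>
    intro e' e h1 h2 h3 h4 h5
    set T := Finset.univ.filter fun v => e' v ≠ 0 with hT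
    have hmT : ∀ v, v ∈ T ↔ e' v ≠ 0 := fun v => by simp [hT]
    rcases T.eq_empty_or_nonempty with hTe | hTne
    · refine ih e' e h1 h2 h3 h4 ?_
      rw [← hT, hTe]
      simp
    · obtain ⟨t, ht, hmin⟩ := Finset.exists_min_image T e' hTne
      have htpos : 0 < e' t := lt_of_le_of_ne (h1 t) (Ne.symm ((hmT t).1 ht))
      have hTQ : T ⊆ Q := by
        intro v hv
        by_contra hvQ
        exact (hmT v).1 hv (h3 v hvQ)
      set f' : V → ℝ := fun v => if v ∈ T then e' v - e' t else e' v with hf'
      set f : V → ℝ := fun v => if v ∈ cl D T ∩ K then e v - e' t else e v with hf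
      have hge : ∀ v ∈ cl D T ∩ K, e' t ≤ e v := by
        intro v hv
        rw [Finset.mem_inter] at hv
        obtain ⟨y, hy, hyv⟩ := mem_cl'.1 hv.1
        exact (hmin y hy).trans (h4 y (hTQ hy) v hv.2 hyv)
      have hsub := ih f' f ?_ ?_ ?_ ?_ ?_
      · have e1 : ∑ v, w v * e' v = ∑ v, w v * f' v + e' t * W w T := by
          have : ∀ v, w v * e' v = w v * f' v + if v ∈ T then e' t * w v else 0 := by
            intro v
            rw [hf']
            by_cases hv : v ∈ T
            · simp only [hv, if_true]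
              ring
            · simp only [hv, if_false, add_zero]
          rw [Finset.sum_congr rfl fun v _ => this v, Finset.sum_add_distrib, ← Finset.sum_filter,
            Finset.filter_mem_eq_inter, Finset.univ_inter]
          unfold W
          rw [Finset.mul_sum]
        have e2 : ∑ v, w v * e v = ∑ v, w v * f v + e' t * W w (cl D T ∩ K) := by
          have : ∀ v, w v * e v = w v * f v + if v ∈ cl D T ∩ K then e' t * w v else 0 := by
            intro v
            rw [hf]
            by_cases hv : v ∈ cl D T ∩ K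
            · simp only [hv, if_true]
              ring
            · simp only [hv, if_false, add_zero]
          rw [Finset.sum_congr rfl fun v _ => this v, Finset.sum_add_distrib, ← Finset.sum_filter,
            Finset.filter_mem_eq_inter, Finset.univ_inter]
          unfold W
          rw [Finset.mul_sum]
        have e3 := mul_le_mul_of_nonneg_left (hall T hTQ) htpos.le
        rw [e1, e2]
        linarith
      · intro v
        rw [hf']
        by_cases hv : v ∈ T
        · simp only [hv, if_true]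
          linarith [hmin v hv]
        · simp only [hv, if_false]
          exact h1 v
      · intro v
        rw [hf]
        by_cases hv : v ∈ cl D T ∩ K
        · simp only [hv, if_true]
          linarith [hge v hv]
        · simp only [hv, if_false]
          exact h2 v
      · intro v hvQ
        have hv : v ∉ T := fun h => hvQ (hTQ h)
        rw [hf']
        simp only [hv, if_false]
        exact h3 v hvQ
      · intro z' hz' z hz hzz
        by_cases hv' : z' ∈ T
        · have hv : z ∈ cl D T ∩ K :=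
            Finset.mem_inter.2 ⟨mem_cl'.2 ⟨z', hv', hzz⟩, hz⟩
          rw [hf', hf]
          simp only [hv', hv, if_true]
          linarith [h4 z' hz' z hz hzz]
        · have hz0 : e' z' = 0 := by
            by_contra h
            exact hv' ((hmT z').2 h)
          have hz1 : f' z' = 0 := by
            rw [hf']
            simp only [hv', if_false]
            exact hz0
          rw [hz1, hf]
          by_cases hv : z ∈ cl D T ∩ K
          · simp only [hv, if_true]
            linarith [hge z hv]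
          · simp only [hv, if_false]
            exact h2 z
      · have hlt : (Finset.univ.filter fun v => f' v ≠ 0) ⊂ T := by
          rw [Finset.ssubset_iff_of_subset]
          · refine ⟨t, ht, ?_⟩
            rw [Finset.mem_filter]
            rintro ⟨-, h⟩
            apply h
            rw [hf']
            simp only [ht, if_true, sub_self]
          · intro v hv
            rw [Finset.mem_filter] at hv
            by_contra hvT
            apply hv.2
            rw [hf']
            simp only [hvT, if_false]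
            by_contra h
            exact hvT ((hmT v).2 h)
        have := Finset.card_lt_card hlt
        omega

end Vale.Agent.P038.H139
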