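import Vale.Agent.P038.H139.StarA
import Vale.Agent.P038.H139.Fin2

/-!
# The inequality (★) (P038)
-/

namespace Vale.Agent.P038.H139

open Finset

universe u

variable {V : Type u} [Fintype V]

/-- Hall in the rows of `K`. -/
theorem rowK [DecidableEq V] {D : OGraph V} {w : V → ℝ} (hw : ∀ v, 0 ≤ w v) {B U : V → Finset V}
    (hR : RowHall D w B U) (z : V) (T : Finset V) (hT : T ⊆ oA D U z \ oA D B z) :
    W w T ≤ W w (cl D T \ oA D (oE D B) z) := by
  -- for every set `A` of in-neighbours of `z`
  have key : ∀ A : Finset V, (∀ z' ∈ A, Nb D z' z) →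
      W w (T.filter fun x => ∃ z' ∈ A, x ∉ B z') ≤
        W w ((cl D T).filter fun u => ∃ z' ∈ A, u ∉ oE D B z') := by
    intro A
    induction A using Finset.induction_on with
    | empty => intro _; simp [W]
    | insert a A haA ih =>
      intro hA
      have h1 := ih fun z' hz' => hA z' (Finset.mem_insert_of_mem hz')
      set T1 := T.filter fun x => (∀ z' ∈ A, x ∈ B z') ∧ x ∉ B a with hT1
      have hT1U : T1 ⊆ U a \ B a := by
        intro x hx
        rw [hT1, Finset.mem_filter] at hx
        rw [Finset.mem_sdiff]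
        have h2 := hT hx.1
        rw [Finset.mem_sdiff, mem_oA] at h2
        exact ⟨h2.1 a (hA a (Finset.mem_insert_self _ _)), hx.2.2⟩
      have h2 := hR a T1 hT1U
      have e1 : (T.filter fun x => ∃ z' ∈ insert a A, x ∉ B z') =
          (T.filter fun x => ∃ z' ∈ A, x ∉ B z') ∪ T1 := by
        ext x
        rw [hT1, Finset.mem_union, Finset.mem_filter, Finset.mem_filter, Finset.mem_filter]
        constructor
        · rintro ⟨hx, z', hz', hxz⟩
          by_cases hall : ∀ z' ∈ A, x ∈ B z'
          · rcases Finset.mem_insert.1 hz' with rfl | hz'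
            · exact Or.inr ⟨hx, hall, hxz⟩
            · exact absurd (hall z' hz') hxz
          · push Not at hall
            exact Or.inl ⟨hx, hall⟩
        · rintro (⟨hx, z', hz', hxz⟩ | ⟨hx, _, hxa⟩)
          · exact ⟨hx, z', Finset.mem_insert_of_mem hz', hxz⟩
          · exact ⟨hx, a, Finset.mem_insert_self _ _, hxa⟩
      have d1 : Disjoint (T.filter fun x => ∃ z' ∈ A, x ∉ B z') T1 := by
        rw [Finset.disjoint_left]
        intro x hx hx'
        rw [hT1, Finset.mem_filter] at hx'
        rw [Finset.mem_filter] at hx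
        obtain ⟨-, z', hz', hxz⟩ := hx
        exact hxz (hx'.2.1 z' hz')
      have e2 : ((cl D T).filter fun u => ∃ z' ∈ A, u ∉ oE D B z') ∪ (cl D T1 \ cl D (B a)) ⊆
          (cl D T).filter fun u => ∃ z' ∈ insert a A, u ∉ oE D B z' := by
        intro u hu
        rw [Finset.mem_union, Finset.mem_filter, Finset.mem_sdiff] at hu
        rw [Finset.mem_filter]
        rcases hu with ⟨hu, z', hz', huz⟩ | ⟨hu, hua⟩
        · exact ⟨hu, z', Finset.mem_insert_of_mem hz', huz⟩
        · exact ⟨cl_mono (Finset.filter_subset _ _) hu, a, Finset.mem_insert_self _ _, hua⟩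
      have d2 : Disjoint ((cl D T).filter fun u => ∃ z' ∈ A, u ∉ oE D B z')
          (cl D T1 \ cl D (B a)) := by
        rw [Finset.disjoint_left]
        intro u hu hu'
        rw [Finset.mem_filter] at hu
        rw [Finset.mem_sdiff] at hu'
        obtain ⟨-, z', hz', huz⟩ := hu
        obtain ⟨y, hy, hyu⟩ := mem_cl'.1 hu'.1
        rw [hT1, Finset.mem_filter] at hy
        exact huz (mem_oE.2 ⟨y, hy.2.1 z' hz', hyu⟩)
      have h3 := W_mono hw e2
      rw [W_union d2] at h3
      rw [e1, W_union d1]
      linarith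
  classical
  have h1 := key (Finset.univ.filter fun z' => Nb D z' z) (fun z' hz' => by
    simpa using hz')
  refine le_trans (W_mono hw ?_) (h1.trans (W_mono hw ?_))
  · intro x hx
    have h2 := hT hx
    rw [Finset.mem_sdiff, mem_oA, mem_oA] at h2
    have h3 := h2.2
    push Not at h3
    obtain ⟨z', hz', hxz⟩ := h3
    exact Finset.mem_filter.2 ⟨hx, z', by simpa using hz', hxz⟩
  · intro u hu
    rw [Finset.mem_filter] at hu
    obtain ⟨hu, z', hz', huz⟩ := hu
    rw [Finset.mem_sdiff, mem_oA]
    refine ⟨hu, fun h => huz (h z' (by simpa using hz'))⟩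

/-- Hall in the columns of `K`. -/
theorem colK [DecidableEq V] {D : OGraph V} {w : V → ℝ} (hw : ∀ v, 0 ≤ w v) {B U : V → Finset V}
    (hC : ColHall D w B U) (u : V) (T : Finset V)
    (hT : ∀ z' ∈ T, u ∈ oE D U z' \ oE D B z') :
    W w T ≤ W w (cl D T ∩ col (fun z => oE D (oA D U) z \ oA D (oE D B) z) u) := by
  have key : ∀ A : Finset V, (∀ x ∈ A, Nb D x u) →
      W w (T.filter fun z' => ∃ x ∈ A, x ∈ U z') ≤
        W w ((cl D T ∩ col (fun z => oE D (oA D U) z \ oA D (oE D B) z) u).filter
          fun z => ∃ x ∈ A, x ∈ oA D U z) := by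
    intro A
    induction A using Finset.induction_on with
    | empty => intro _; simp [W]
    | insert a A haA ih =>
      intro hA
      have h1 := ih fun z' hz' => hA z' (Finset.mem_insert_of_mem hz')
      set T1 := T.filter fun z' => (∀ x ∈ A, x ∉ U z') ∧ a ∈ U z' with hT1
      have haN : Nb D a u := hA a (Finset.mem_insert_self _ _)
      have hT1U : ∀ z ∈ T1, a ∈ U z \ B z := by
        intro z hz
        rw [hT1, Finset.mem_filter] at hz
        rw [Finset.mem_sdiff]
        refine ⟨hz.2.2, fun h => ?_⟩
        have h2 := hT z hz.1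
        rw [Finset.mem_sdiff] at h2
        exact h2.2 (mem_oE.2 ⟨a, h, haN⟩)
      have h2 := hC a T1 hT1U
      have e1 : (T.filter fun z' => ∃ x ∈ insert a A, x ∈ U z') =
          (T.filter fun z' => ∃ x ∈ A, x ∈ U z') ∪ T1 := by
        ext z
        rw [hT1, Finset.mem_union, Finset.mem_filter, Finset.mem_filter, Finset.mem_filter]
        constructor
        · rintro ⟨hz, x, hx, hxz⟩
          by_cases hall : ∃ x ∈ A, x ∈ U z
          · exact Or.inl ⟨hz, hall⟩
          · push Not at hall
            rcases Finset.mem_insert.1 hx with rfl | hx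
            · exact Or.inr ⟨hz, hall, hxz⟩
            · exact absurd hxz (hall x hx)
        · rintro (⟨hz, x, hx, hxz⟩ | ⟨hz, _, hxa⟩)
          · exact ⟨hz, x, Finset.mem_insert_of_mem hx, hxz⟩
          · exact ⟨hz, a, Finset.mem_insert_self _ _, hxa⟩
      have d1 : Disjoint (T.filter fun z' => ∃ x ∈ A, x ∈ U z') T1 := by
        rw [Finset.disjoint_left]
        intro z hz hz'
        rw [hT1, Finset.mem_filter] at hz'
        rw [Finset.mem_filter] at hz
        obtain ⟨-, x, hx, hxz⟩ := hz
        exact hz'.2.1 x hx hxz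
      have e2 : ((cl D T ∩ col (fun z => oE D (oA D U) z \ oA D (oE D B) z) u).filter
          fun z => ∃ x ∈ A, x ∈ oA D U z) ∪ (cl D T1 ∩ col (oA D U) a) ⊆
          (cl D T ∩ col (fun z => oE D (oA D U) z \ oA D (oE D B) z) u).filter
          fun z => ∃ x ∈ insert a A, x ∈ oA D U z := by
        intro z hz
        rw [Finset.mem_union, Finset.mem_filter, Finset.mem_inter, Finset.mem_inter] at hz
        rw [Finset.mem_filter, Finset.mem_inter]
        rcases hz with ⟨hz, x, hx, hxz⟩ | ⟨hz, hza⟩
        · exact ⟨hz, x, Finset.mem_insert_of_mem hx, hxz⟩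
        · rw [mem_col] at hza
          refine ⟨⟨cl_mono (Finset.filter_subset _ _) hz, ?_⟩, a, Finset.mem_insert_self _ _, hza⟩
          rw [mem_col, Finset.mem_sdiff]
          refine ⟨mem_oE.2 ⟨a, hza, haN⟩, fun h => ?_⟩
          obtain ⟨y, hy, hyz⟩ := mem_cl'.1 hz
          rw [hT1, Finset.mem_filter] at hy
          have h3 := hT y hy.1
          rw [Finset.mem_sdiff] at h3
          exact h3.2 (mem_oA.1 h y hyz)
      have d2 : Disjoint ((cl D T ∩ col (fun z => oE D (oA D U) z \ oA D (oE D B) z) u).filter
          fun z => ∃ x ∈ A, x ∈ oA D U z) (cl D T1 ∩ col (oA D U) a) := by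
        rw [Finset.disjoint_left]
        intro z hz hz'
        rw [Finset.mem_filter] at hz
        rw [Finset.mem_inter] at hz'
        obtain ⟨-, x, hx, hxz⟩ := hz
        obtain ⟨y, hy, hyz⟩ := mem_cl'.1 hz'.1
        rw [hT1, Finset.mem_filter] at hy
        exact hy.2.1 x hx (mem_oA.1 hxz y hyz)
      have h3 := W_mono hw e2
      rw [W_union d2] at h3
      rw [e1, W_union d1]
      linarith
  classical
  have h1 := key (Finset.univ.filter fun x => Nb D x u) (fun x hx => by simpa using hx)
  refine le_trans (W_mono hw ?_) (h1.trans (W_mono hw (Finset.filter_subset _ _)))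
  intro z hz
  have h2 := hT z hz
  rw [Finset.mem_sdiff] at h2
  obtain ⟨x, hx, hxu⟩ := mem_oE.1 h2.1
  exact Finset.mem_filter.2 ⟨hz, x, by simpa using hxu, hx⟩

/-- (★). -/
theorem star [DecidableEq V] {D : OGraph V} {w : V → ℝ} (hw : ∀ v, 0 ≤ w v) : Star D w := by
  intro B U _ hR hC
  set P : V → Finset V := fun z => oA D U z \ oA D B z with hP
  set Q : V → Finset V := fun z => oE D U z \ oE D B z with hQ
  set K : V → Finset V := fun z => oE D (oA D U) z \ oA D (oE D B) z with hK
  set G : V → Finset V := fun z => U z \ B z with hG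
  set m1 : V → Finset V → ℝ := fun z S => mm D w (G z) (cl D (B z)) S with hm1
  set m2 : V → Finset V → ℝ := fun z S => mm D w (P z) (oA D (oE D B) z) S with hm2
  have hGQ : ∀ z, cl D (G z) \ cl D (B z) ⊆ Q z := by
    intro z u hu
    rw [Finset.mem_sdiff] at hu
    rw [hQ]
    exact Finset.mem_sdiff.2 ⟨cl_mono Finset.sdiff_subset hu.1, hu.2⟩
  have hPK : ∀ z, cl D (P z) \ oA D (oE D B) z ⊆ K z := by
    intro z u hu
    rw [Finset.mem_sdiff] at hu
    rw [hK]
    exact Finset.mem_sdiff.2 ⟨cl_mono Finset.sdiff_subset hu.1, hu.2⟩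
  have main : ∀ S : Finset V,
      ∑ z, w z * (W w (Q z ∩ S) - (m1 z S - m1 z ∅)) ≤
        ∑ z, w z * (W w (K z ∩ S) - (m2 z S - m2 z ∅)) := by
    intro S
    induction S using Finset.induction_on with
    | empty => simp [W]
    | insert u S huS ih =>
      set e' : V → ℝ := fun z => (if u ∈ Q z then w u else 0) - (m1 z (insert u S) - m1 z S)
        with he'
      set e : V → ℝ := fun z => (if u ∈ K z then w u else 0) - (m2 z (insert u S) - m2 z S)
        with he
      have hWi : ∀ R : Finset V, W w (R ∩ insert u S) = W w (R ∩ S) + if u ∈ R then w u else 0 := by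
        intro R
        by_cases hu : u ∈ R
        · rw [if_pos hu, Finset.inter_insert_of_mem hu]
          unfold W
          rw [Finset.sum_insert (fun h => huS (Finset.mem_inter.1 h).2)]
          ring
        · rw [if_neg hu, Finset.inter_insert_of_notMem hu, add_zero]
      have hall : ∀ T ⊆ col Q u, W w T ≤ W w (cl D T ∩ col K u) := by
        intro T hT
        exact colK hw hC u T fun z' hz' => mem_col.1 (hT hz')
      have hlay := layer hw hall (Fintype.card V) e' e
        (fun z => by
          have := mm_insert_le hw (G z) (cl D (B z)) S u (hGQ z)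
          simp only [he', hm1]
          linarith)
        (fun z => by
          have := mm_insert_le hw (P z) (oA D (oE D B) z) S u (hPK z)
          simp only [he, hm2]
          linarith)
        (fun z hz => by
          have h1 := mm_insert_le hw (G z) (cl D (B z)) S u (hGQ z)
          have h2 := mm_mono (D := D) hw (G z) (cl D (B z)) S u
          have h3 : u ∉ Q z := fun h => hz (mem_col.2 h)
          rw [if_neg h3] at h1
          simp only [he', hm1, if_neg h3]
          linarith)
        (fun z' hz' z hz hzz => by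
          have h1 : u ∈ Q z' := mem_col.1 hz'
          have h2 : u ∈ K z := mem_col.1 hz
          have h3 : u ∉ cl D (B z') := (Finset.mem_sdiff.1 h1).2
          have h4 := mm_cmp (D := D) hw (P := P z) (G := G z') (B0 := B z')
            (b := oA D (oE D B) z) (S := S) (u := u)
            (fun v hv => mem_oA.1 hv z' hzz)
            (fun x hx hxB => by
              have h5 := (Finset.mem_sdiff.1 hx).1
              exact Finset.mem_sdiff.2 ⟨mem_oA.1 h5 z' hzz, hxB⟩)
            (by
              rw [Finset.disjoint_left]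
              intro x hx
              exact (Finset.mem_sdiff.1 hx).2)
            h3 huS
          simp only [he', he, hm1, hm2, if_pos h1, if_pos h2]
          linarith)
        (Finset.card_le_univ _)
      have s1 : ∑ z, w z * (W w (Q z ∩ insert u S) - (m1 z (insert u S) - m1 z ∅)) =
          ∑ z, w z * (W w (Q z ∩ S) - (m1 z S - m1 z ∅)) + ∑ z, w z * e' z := by
        rw [← Finset.sum_add_distrib]
        refine Finset.sum_congr rfl fun z _ => ?_
        rw [hWi, he']
        ring
      have s2 : ∑ z, w z * (W w (K z ∩ insert u S) - (m2 z (insert u S) - m2 z ∅)) =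
          ∑ z, w z * (W w (K z ∩ S) - (m2 z S - m2 z ∅)) + ∑ z, w z * e z := by
        rw [← Finset.sum_add_distrib]
        refine Finset.sum_congr rfl fun z _ => ?_
        rw [hWi, he]
        ring
      rw [s1, s2]
      exact add_le_add ih hlay
  have h1 := main Finset.univ
  have hl : mu w Q - mu w G ≤ ∑ z, w z * (W w (Q z ∩ Finset.univ) -
      (m1 z Finset.univ - m1 z ∅)) := by
    unfold mu
    rw [← Finset.sum_sub_distrib]
    refine Finset.sum_le_sum fun z _ => ?_
    rw [← mul_sub]
    refine mul_le_mul_of_nonneg_left ?_ (hw z)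
    have h2 : m1 z Finset.univ = W w (G z) := mm_univ hw _ _
    have h3 : 0 ≤ m1 z ∅ := mm_nonneg D w _ _ _
    rw [Finset.inter_univ, h2]
    linarith
  have hr : ∑ z, w z * (W w (K z ∩ Finset.univ) - (m2 z Finset.univ - m2 z ∅)) ≤
      mu w K - mu w P := by
    unfold mu
    rw [← Finset.sum_sub_distrib]
    refine Finset.sum_le_sum fun z _ => ?_
    rw [← mul_sub]
    refine mul_le_mul_of_nonneg_left ?_ (hw z)
    have h2 : m2 z Finset.univ = W w (P z) := mm_univ hw _ _
    have h3 : m2 z ∅ ≤ 0 := mm_le_zero fun T hT => rowK hw hR z T hT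
    rw [Finset.inter_univ, h2]
    linarith
  linarith

/-- No normal form with `lam = 1`. -/
theorem no_nf [Nonempty V] (D : OGraph V) (w : V → ℝ) : ¬ NF 1 D w := by
  classical
  intro h
  obtain ⟨D', w', h'⟩ := exists_nfmin h
  exact no_nfmin (star fun v => h'.toNF.nonneg v) h'

/-- **Seymour's second neighbourhood conjecture**, with weights. -/
theorem snc {V : Type u} [Fintype V] [Nonempty V] (D : OGraph V) (w : V → ℝ)
    (hw : ∀ v, 0 ≤ w v) : ∃ v, ∑ u ∈ N1 D v, w u ≤ ∑ u ∈ N2 D v, w u := by
  obtain ⟨v, hv⟩ := snc_of_noNF zero_le_one (fun V _ _ D w => no_nf D w) D w hw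
  exact ⟨v, by rwa [one_mul] at hv⟩

end Vale.Agent.P038.H139
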