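import Vale.Agent.P038.H139.Basic

/-!
# Steps 4 and 6: rewiring a row, bad arcs
-/

namespace Vale.Agent.P038.H139

open Finset

variable {V : Type*} [Fintype V]

theorem Opt.nonneg {lam : ℝ} {D : OGraph V} {w : V → ℝ} (h : Opt lam D w) (v : V) : 0 ≤ w v :=
  (h.pos v).le

/-- A graph all of whose values are at least `1` has no value larger than `1`. -/
theorem Opt.not_lt {lam : ℝ} {D : OGraph V} {w : V → ℝ} (h : Opt lam D w) {D' : OGraph V}
    (h1 : ∀ v, 1 ≤ Fw lam D' w v) (u : V) (hu : 1 < Fw lam D' w u) : False := by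
  have := h.opt D' h1 u
  linarith

/-- Replace the row of `u` by `O`. -/
def rew (D : OGraph V) (u : V) (O : Finset V) (hu : u ∉ O) (hO : ∀ y ∈ O, ¬ D.arc y u) :
    OGraph V where
  arc a b := (a = u ∧ b ∈ O) ∨ (a ≠ u ∧ D.arc a b)
  loopless := by
    rintro v (⟨rfl, h⟩ | ⟨_, h⟩)
    · exact hu h
    · exact D.loopless v h
  asymm := by
    rintro a b (⟨rfl, h⟩ | ⟨h0, h⟩) (⟨h1, h2⟩ | ⟨h1, h2⟩)
    · subst h1; exact hu h
    · exact hO b h h2
    · subst h1; exact hO a h2 h
    · exact D.asymm a b h h2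

theorem step4 {lam : ℝ} {D : OGraph V} {w : V → ℝ} (h : Opt lam D w) (u : V) (O : Finset V)
    (hO : ∀ y ∈ O, InR D u y) : (1 + lam) * W w O - W w (cl D O) ≤ 1 := by
  classical
  by_contra hcon
  push Not at hcon
  have hu : u ∉ O := fun hu => (hO u hu).1 rfl
  have hO' : ∀ y ∈ O, ¬ D.arc y u := fun y hy => (hO y hy).2.1
  set D' := rew D u O hu hO' with hD'
  have hN1u : N1 D' u = O := by
    ext z
    rw [mem_N1]
    constructor
    · rintro (⟨_, h⟩ | ⟨h, _⟩)
      · exact h
      · exact absurd rfl h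
    · intro hz
      exact Or.inl ⟨rfl, hz⟩
  have hN2u : N2 D' u ∪ O = cl D O := by
    ext z
    rw [Finset.mem_union, mem_N2, mem_cl]
    constructor
    · rintro (⟨h1, h2, c, h3, h4⟩ | h)
      · right
        have hc : c ∈ O := by
          rcases h3 with ⟨_, h⟩ | ⟨h, _⟩
          · exact h
          · exact absurd rfl h
        refine ⟨c, hc, ?_⟩
        rcases h4 with ⟨h, _⟩ | ⟨_, h⟩
        · subst h; exact absurd hc hu
        · exact h
      · exact Or.inl h
    · rintro (h | ⟨y, hy, hyz⟩)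
      · exact Or.inr h
      · by_cases hz : z ∈ O
        · exact Or.inr hz
        · left
          refine ⟨?_, ?_, y, Or.inl ⟨rfl, hy⟩, Or.inr ⟨?_, hyz⟩⟩
          · rintro rfl
            exact hO' y hy hyz
          · rintro (⟨_, h⟩ | ⟨h, _⟩)
            · exact hz h
            · exact absurd rfl h
          · rintro rfl
            exact hu hy
  have hdis : Disjoint (N2 D' u) O := by
    rw [Finset.disjoint_left]
    intro z hz hzO
    rw [mem_N2] at hz
    exact hz.2.1 (Or.inl ⟨rfl, hzO⟩)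
  have hFu : Fw lam D' w u = (1 + lam) * W w O - W w (cl D O) := by
    rw [← hN2u, W_union hdis, Fw, hN1u]
    ring
  have hF : ∀ a, 1 ≤ Fw lam D' w a := by
    intro a
    by_cases ha : a = u
    · subst ha
      rw [hFu]
      exact hcon.le
    · have h1 : N1 D' a = N1 D a := by
        ext z
        rw [mem_N1, mem_N1]
        constructor
        · rintro (⟨h, _⟩ | ⟨_, h⟩)
          · exact absurd h ha
          · exact h
        · intro h
          exact Or.inr ⟨ha, h⟩
      have h2 : N2 D' a ⊆ N2 D a := by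
        intro z hz
        rw [mem_N2] at hz
        obtain ⟨hza, hnz, c, hac, hcz⟩ := hz
        have hnz' : ¬ D.arc a z := fun h => hnz (Or.inr ⟨ha, h⟩)
        have hac' : D.arc a c := by
          rcases hac with ⟨h, _⟩ | ⟨_, h⟩
          · exact absurd h ha
          · exact h
        rcases hcz with ⟨hc, hzO⟩ | ⟨hc, hcz⟩
        · subst hc
          rcases (hO z hzO).2.2 a hac' with h | h
          · exact absurd (mem_N1.1 h) hnz'
          · exact h
        · rw [mem_N2]
          exact ⟨hza, hnz', c, hac', hcz⟩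
      have h3 := W_mono h.nonneg h2
      have h4 := h.one a
      unfold Fw at h4 ⊢
      rw [h1]
      linarith
  exact h.not_lt hF u (by rw [hFu]; exact hcon)

/-- The out-neighbours of `q` belong to `R(q)`. -/
theorem inR_of_arc {D : OGraph V} {q y : V} (h : D.arc q y) : InR D q y := by
  refine ⟨?_, D.asymm _ _ h, ?_⟩
  · rintro rfl
    exact D.loopless _ h
  · intro s hs
    by_cases hsy : D.arc s y
    · exact Or.inl (mem_N1.2 hsy)
    · refine Or.inr (mem_N2.2 ⟨?_, hsy, q, hs, h⟩)
      rintro rfl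
      exact D.asymm _ _ h hs

/-- `f(N⁺(u)) = F(u) = 1`. -/
theorem f_row {lam : ℝ} {D : OGraph V} {w : V → ℝ} (h : Opt lam D w) (u : V) :
    (1 + lam) * W w (N1 D u) - W w (cl D (N1 D u)) = 1 := by
  classical
  have h1 : N2 D u ∪ N1 D u = cl D (N1 D u) := by
    ext z
    rw [Finset.mem_union, mem_N2, mem_cl, mem_N1]
    constructor
    · rintro (⟨_, _, c, h3, h4⟩ | h)
      · exact Or.inr ⟨c, mem_N1.2 h3, h4⟩
      · exact Or.inl h
    · rintro (h | ⟨c, hc, hcz⟩)
      · exact Or.inr h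
      · rw [mem_N1] at hc
        by_cases hz : D.arc u z
        · exact Or.inr hz
        · refine Or.inl ⟨?_, hz, c, hc, hcz⟩
          rintro rfl
          exact D.asymm _ _ hc hcz
  have h2 : Disjoint (N2 D u) (N1 D u) := by
    rw [Finset.disjoint_left]
    intro z hz hz'
    rw [mem_N2] at hz
    exact hz.2.1 (mem_N1.1 hz')
  have h3 := h.one u
  rw [← h1, W_union h2]
  unfold Fw at h3
  linarith

theorem cl_mono {D : OGraph V} {S T : Finset V} (h : S ⊆ T) : cl D S ⊆ cl D T := by
  intro z hz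
  rw [mem_cl] at hz ⊢
  rcases hz with hz | ⟨y, hy, hyz⟩
  · exact Or.inl (h hz)
  · exact Or.inr ⟨y, h hy, hyz⟩

theorem cl_union [DecidableEq V] {D : OGraph V} {S T : Finset V} :
    cl D (S ∪ T) = cl D S ∪ cl D T := by
  ext z
  simp only [mem_cl, Finset.mem_union]
  constructor
  · rintro ((h | h) | ⟨y, hy | hy, hyz⟩)
    · exact Or.inl (Or.inl h)
    · exact Or.inr (Or.inl h)
    · exact Or.inl (Or.inr ⟨y, hy, hyz⟩)
    · exact Or.inr (Or.inr ⟨y, hy, hyz⟩)
  · rintro ((h | ⟨y, hy, hyz⟩) | (h | ⟨y, hy, hyz⟩))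
    · exact Or.inl (Or.inl h)
    · exact Or.inr ⟨y, Or.inl hy, hyz⟩
    · exact Or.inl (Or.inr h)
    · exact Or.inr ⟨y, Or.inr hy, hyz⟩

/-- Step 6, induction. -/
theorem step6_aux [DecidableEq V] {lam : ℝ} {D : OGraph V} {w : V → ℝ} (h : Opt lam D w) (u : V)
    (P : Finset V) : (∀ q ∈ P, D.arc q u) → ∀ H : Finset V, H ⊆ Hb D u →
      (∀ x ∈ H, ∃ q ∈ P, ¬ D.arc q x) →
      (1 + lam) * W w H ≤ W w (cl D H \ N1 D u) := by
  induction P using Finset.induction_on with
  | empty =>
    intro _ H _ hH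
    have : H = ∅ := by
      rw [Finset.eq_empty_iff_forall_notMem]
      intro x hx
      obtain ⟨q, hq, _⟩ := hH x hx
      simp at hq
    subst this
    have h1 := W_nonneg h.nonneg (cl D (∅ : Finset V) \ N1 D u)
    have h2 : W w (∅ : Finset V) = 0 := by simp [W]
    rw [h2]
    linarith
  | insert q P hqP ih =>
    intro hP H hHb hH
    have hqu : D.arc q u := hP q (Finset.mem_insert_self _ _)
    set H' := H ∩ N1 D q with hH'
    have hsub : H' ⊆ H := Finset.inter_subset_left
    have hH'1 : (1 + lam) * W w H' ≤ W w (cl D H' \ N1 D u) := by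
      apply ih (fun q' hq' => hP q' (Finset.mem_insert_of_mem hq')) H' (hsub.trans hHb)
      intro x hx
      obtain ⟨hxH, hxq⟩ := Finset.mem_inter.1 hx
      obtain ⟨q', hq', hq'x⟩ := hH x hxH
      rcases Finset.mem_insert.1 hq' with rfl | hq'
      · exact absurd (mem_N1.1 hxq) hq'x
      · exact ⟨q', hq', hq'x⟩
    have h4 := step4 h q (N1 D q ∪ H) (by
      intro y hy
      rcases Finset.mem_union.1 hy with hy | hy
      · exact inR_of_arc (mem_N1.1 hy)
      · exact (mem_Hb.1 (hHb hy)).2 q hqu)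
    have h5 := f_row h q
    have e1 : W w (N1 D q ∪ H) = W w (N1 D q) + W w (H \ N1 D q) := by
      rw [← Finset.union_sdiff_self_eq_union, W_union Finset.disjoint_sdiff]
    have e2 : W w (cl D (N1 D q ∪ H)) = W w (cl D (N1 D q)) + W w (cl D H \ cl D (N1 D q)) := by
      rw [cl_union, ← Finset.union_sdiff_self_eq_union, W_union Finset.disjoint_sdiff]
    have e3 : W w H = W w H' + W w (H \ N1 D q) := by
      rw [hH', ← W_union (by
        rw [Finset.disjoint_left]
        intro z hz hz'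
        exact (Finset.mem_sdiff.1 hz').2 (Finset.mem_inter.1 hz).2)]
      congr 1
      ext z
      simp only [Finset.mem_union, Finset.mem_inter, Finset.mem_sdiff]
      tauto
    have hNu : N1 D u ⊆ cl D (N1 D q) := by
      intro z hz
      rw [mem_cl]
      exact Or.inr ⟨u, mem_N1.2 hqu, mem_N1.1 hz⟩
    have hH'q : cl D H' ⊆ cl D (N1 D q) := cl_mono Finset.inter_subset_right
    have hdis : Disjoint (cl D H' \ N1 D u) (cl D H \ cl D (N1 D q)) := by
      rw [Finset.disjoint_left]
      intro z hz hz'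
      exact (Finset.mem_sdiff.1 hz').2 (hH'q (Finset.mem_sdiff.1 hz).1)
    have hsub2 : (cl D H' \ N1 D u) ∪ (cl D H \ cl D (N1 D q)) ⊆ cl D H \ N1 D u := by
      intro z hz
      rcases Finset.mem_union.1 hz with hz | hz
      · obtain ⟨h1, h2⟩ := Finset.mem_sdiff.1 hz
        exact Finset.mem_sdiff.2 ⟨cl_mono hsub h1, h2⟩
      · obtain ⟨h1, h2⟩ := Finset.mem_sdiff.1 hz
        exact Finset.mem_sdiff.2 ⟨h1, fun h => h2 (hNu h)⟩
    have h6 := W_mono h.nonneg hsub2
    rw [W_union hdis] at h6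
    rw [e1, e2] at h4
    rw [e3]
    nlinarith

/-- Step 6: the bad arcs out of `u` cost at most `w(N₂(u))`. -/
theorem step6 {lam : ℝ} {D : OGraph V} {w : V → ℝ} (h : Opt lam D w) (u : V) :
    (1 + lam) * W w (Hb D u) ≤ W w (N2 D u) := by
  classical
  have h1 := step6_aux h u (Finset.univ.filter fun q => D.arc q u)
    (fun q hq => (Finset.mem_filter.1 hq).2) (Hb D u) (Finset.Subset.refl _) (by
      intro x hx
      by_contra hcon
      push Not at hcon
      apply h.noNest u x (mem_Hb.1 hx).1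
      intro q hq
      exact hcon q (Finset.mem_filter.2 ⟨Finset.mem_univ _, hq⟩))
  refine h1.trans (W_mono h.nonneg ?_)
  intro z hz
  obtain ⟨hz1, hz2⟩ := Finset.mem_sdiff.1 hz
  rw [mem_N1] at hz2
  rw [mem_cl] at hz1
  rcases hz1 with hz1 | ⟨y, hy, hyz⟩
  · exact absurd (mem_Hb.1 hz1).1 hz2
  · have huy := (mem_Hb.1 hy).1
    refine mem_N2.2 ⟨?_, hz2, y, huy, hyz⟩
    rintro rfl
    exact D.asymm _ _ huy hyz

end Vale.Agent.P038.H139
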